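import Crest.Agent.N221.D.Defs

/-!
Row 221, block D: `W`, `b`, `ep`, `act`, `be` (everything is a two-line consequence of `C/Bdy`:
`asy_asy`, `bus_asy`, `asy_self`, `eq_asy`, `Deck.asy_eq`, `Deck.bus_eq`, `continuousOn_asy`).
Key identity: `dir 0 (ep x v) = asy x v 0` (`lg_ex`, `‖asy‖ = 1`).
-/

set_option autoImplicit false
set_option linter.unusedSectionVars false
set_option linter.unusedVariables false

open MeasureTheory Set Filter Topology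
open scoped ContDiff RealInnerProductSpace ENNReal
open Crest.GeometryTopology.Submanifold
open Crest.Agent.R241.DDefs Crest.Agent.R241.D2
open Crest.Agent.R208.J Crest.Agent.R208.L

noncomputable section

namespace Crest.Agent.N221.Cov

variable {n N : ℕ} {a : ℝ} {S : Set (Euc N)} {G : Geo n N (-(a ^ 2)) S} (C : Cov G)

variable {x y z ξ η : Euc n} {v w : Euc N} {g g' : Euc n → Euc n}

lemma bas_ne0 (hξ : ‖ξ‖ = 1) : ξ ≠ 0 := norm_ne_zero_iff.1 (by rw [hξ]; simp)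
lemma un_dir0 (hξ : ξ ≠ 0) : C.Un 0 (C.dir 0 ξ) :=
  C.un_dir hξ.symm
/-- `lg_zero`: `lg 0` is a linear isometry `A`, `ex 0 (A x) = x` -/
lemma gd_dir0 (hξ : ‖ξ‖ = 1) (t : ℝ) : C.gd 0 (C.dir 0 ξ) t = t • ξ := by
  obtain ⟨A, hA⟩ := C.lg_zero
  rw [gd, dir, hA, A.norm_map, hξ, inv_one, one_smul, ← map_smul, ← hA, C.ex_lg]
lemma dir0_smul {t : ℝ} (ht : 0 < t) (ξ : Euc n) : C.dir 0 (t • ξ) = C.dir 0 ξ := by
  obtain ⟨A, hA⟩ := C.lg_zero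
  rw [dir, dir, hA, hA, map_smul, norm_smul, smul_smul, Real.norm_of_nonneg ht.le, mul_inv,
    mul_right_comm, inv_mul_cancel₀ ht.ne', one_mul]
lemma inner_dir0 (hξ : ‖ξ‖ = 1) (hη : ‖η‖ = 1) : ⟪C.dir 0 ξ, C.dir 0 η⟫ = ⟪ξ, η⟫ := by
  obtain ⟨A, hA⟩ := C.lg_zero
  simp only [dir, hA, A.norm_map, hξ, hη, inv_one, one_smul, A.inner_map_map]
lemma norm_dir0_sub (hξ : ‖ξ‖ = 1) (hη : ‖η‖ = 1) : ‖C.dir 0 ξ - C.dir 0 η‖ = ‖ξ - η‖ := by
  obtain ⟨A, hA⟩ := C.lg_zero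
  simp only [dir, hA, A.norm_map, hξ, hη, inv_one, one_smul, ← map_sub]
lemma W_smul {t : ℝ} (ht : 0 < t) (ξ y : Euc n) : C.W (t • ξ) y = C.W ξ y := by
  rw [W, C.dir0_smul ht, W]
lemma b_smul {t : ℝ} (ht : 0 < t) (ξ y : Euc n) : C.b (t • ξ) y = C.b ξ y := by
  rw [b, C.dir0_smul ht, b]
lemma act_smul {t : ℝ} (ht : 0 < t) (g : Euc n → Euc n) (ξ : Euc n) :
    C.act g (t • ξ) = C.act g ξ := by
  rw [act, C.dir0_smul ht, act]
lemma be_smul {t : ℝ} (ht : 0 < t) (g : Euc n → Euc n) (ξ : Euc n) :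
    C.be g (t • ξ) = C.be g ξ := by
  rw [be, C.act_smul ht, be]

lemma bas_cont_dir0 : ContinuousOn (C.dir 0) {ξ | ξ ≠ 0} := fun ξ hξ =>
  (ContinuousAt.comp (f := fun ξ => ((0 : Euc n), ξ)) (C.contDiffAt_dir (Ne.symm hξ)).continuousAt
    (Continuous.prodMk_right 0).continuousAt).continuousWithinAt
lemma bas_cont_tri : ContinuousOn
    (fun p : Euc n × Euc n => ((0 : Euc n), C.dir 0 p.1, p.2)) {p | p.1 ≠ 0} :=
  continuousOn_const.prodMk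
    ((C.bas_cont_dir0.comp continuousOn_fst fun _ hp => hp).prodMk continuousOn_snd)

variable (ha : 0 < a)
include ha

lemma bas_asy_self (hv : C.Un x v) : C.asy x v x = v := by
  simpa only [C.gd_zero, C.vel_zero] using C.asy_self ha hv 0

lemma un_W (hξ : ξ ≠ 0) (y : Euc n) : C.Un y (C.W ξ y) :=
  C.un_asy ha (C.un_dir0 hξ) y
lemma W_zero (hξ : ξ ≠ 0) : C.W ξ 0 = C.dir 0 ξ :=
  C.bas_asy_self ha (C.un_dir0 hξ)
lemma b_zero (hξ : ξ ≠ 0) : C.b ξ 0 = 0 := by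
  simpa only [b, C.gd_zero, neg_zero] using C.bus_gd ha (C.un_dir0 hξ) 0
lemma norm_ep (hv : C.Un x v) : ‖C.ep x v‖ = 1 := by
  rw [← C.dd_zero, dd, ep, C.lg_ex _ _ (C.un_asy ha hv 0).mem, (C.un_asy ha hv 0).norm]
lemma ep_ne_zero (hv : C.Un x v) : C.ep x v ≠ 0 :=
  norm_ne_zero_iff.1 (by rw [C.norm_ep ha hv]; simp)
lemma dir_ep (hv : C.Un x v) : C.dir 0 (C.ep x v) = C.asy x v 0 := by
  rw [dir, ep, C.lg_ex _ _ (C.un_asy ha hv 0).mem, (C.un_asy ha hv 0).norm, inv_one, one_smul]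
lemma W_ep (hv : C.Un x v) (y : Euc n) : C.W (C.ep x v) y = C.asy x v y := by
  rw [W, C.dir_ep ha hv, C.asy_asy ha hv]
lemma W_ep_self (hv : C.Un x v) : C.W (C.ep x v) x = v := by
  rw [C.W_ep ha hv, C.bas_asy_self ha hv]
lemma b_ep (hv : C.Un x v) (y : Euc n) : C.b (C.ep x v) y = C.bus x v y - C.bus x v 0 := by
  rw [b, C.dir_ep ha hv, C.bus_asy ha hv]
lemma ep_W (hξ : ‖ξ‖ = 1) (y : Euc n) : C.ep y (C.W ξ y) = ξ := by
  have h := C.un_dir0 (bas_ne0 hξ)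
  rw [ep, W, C.asy_asy ha h, C.bas_asy_self ha h]
  simpa only [gd, one_smul] using C.gd_dir0 hξ 1
lemma asy_W (hξ : ξ ≠ 0) (y z : Euc n) : C.asy y (C.W ξ y) z = C.W ξ z :=
  C.asy_asy ha (C.un_dir0 hξ) y z
lemma bus_W (hξ : ξ ≠ 0) (y z : Euc n) : C.bus y (C.W ξ y) z = C.b ξ z - C.b ξ y :=
  C.bus_asy ha (C.un_dir0 hξ) y z
lemma W_inj (hξ : ‖ξ‖ = 1) (hη : ‖η‖ = 1) (h : C.W ξ y = C.W η y) : ξ = η := by
  rw [← C.ep_W ha hξ y, h, C.ep_W ha hη]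
lemma ep_inj (hv : C.Un x v) (hw : C.Un x w) (h : C.ep x v = C.ep x w) : v = w := by
  rw [← C.W_ep_self ha hv, h, C.W_ep_self ha hw]
lemma ep_ne_neg (hv : C.Un x v) : C.ep x v ≠ C.ep x (-v) := fun h => by
  have h1 : (2 : ℝ) • v = 0 := by
    rw [two_smul]; exact add_eq_zero_iff_eq_neg.2 (C.ep_inj ha hv hv.neg h)
  have h2 := hv.norm
  rw [(smul_eq_zero.1 h1).resolve_left two_ne_zero, norm_zero] at h2
  exact zero_ne_one h2
lemma ep_gd (hv : C.Un x v) (t : ℝ) : C.ep (C.gd x v t) (C.vel x v t) = C.ep x v := by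
  rw [ep, ← C.asy_self ha hv, C.asy_asy ha hv, ep]
lemma ep_gd_neg (hv : C.Un x v) (t : ℝ) : C.ep (C.gd x v t) (-C.vel x v t) = C.ep x (-v) := by
  simpa only [C.gd_neg, C.vel_neg hv.mem, neg_neg] using C.ep_gd ha hv.neg (-t)
/-- geodesics at bounded distance have the same end point -/
lemma ep_eq (hv : C.Un x v) (hw : C.Un y w) {B : ℝ}
    (h : ∀ s, 0 ≤ s → C.dd (C.gd y w s) (C.gd x v s) ≤ B) : C.ep y w = C.ep x v := by
  rw [ep, C.eq_asy ha hv hw h, C.asy_asy ha hv, ep]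
lemma W_gd (hξ : ξ ≠ 0) (y : Euc n) (s : ℝ) :
    C.W ξ (C.gd y (C.W ξ y) s) = C.vel y (C.W ξ y) s :=
  (C.vel_asy ha (C.un_dir0 hξ) y s).symm
lemma b_gd (hξ : ξ ≠ 0) (y : Euc n) (s : ℝ) : C.b ξ (C.gd y (C.W ξ y) s) = C.b ξ y - s :=
  C.bus_gd_asy ha (C.un_dir0 hξ) y s
lemma hasFDerivAt_b (hξ : ξ ≠ 0) (y : Euc n) :
    HasFDerivAt (C.b ξ) (-(innerSL ℝ (C.W ξ y)).comp (fderiv ℝ C.pr y)) y :=
  C.hasFDerivAt_bus ha (C.un_dir0 hξ) y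
lemma abs_b_sub_le (hξ : ξ ≠ 0) (y z : Euc n) : |C.b ξ y - C.b ξ z| ≤ C.dd y z :=
  C.abs_bus_sub_le ha (C.un_dir0 hξ) y z
/-- directions to far points of the ray from `y` to `ξ`, seen from `z` -/
lemma tendsto_W (hξ : ξ ≠ 0) (y z : Euc n) :
    Tendsto (fun t => C.dir z (C.gd y (C.W ξ y) t)) atTop (𝓝 (C.W ξ z)) :=
  C.asy_W ha hξ y z ▸ C.tendsto_asy ha (C.un_W ha hξ y) z
lemma tendsto_b (hξ : ξ ≠ 0) (y z : Euc n) :
    Tendsto (fun t => C.dd z (C.gd y (C.W ξ y) t) - t) atTop (𝓝 (C.b ξ z - C.b ξ y)) :=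
  C.bus_W ha hξ y z ▸ C.tendsto_bus ha (C.un_W ha hξ y) z

/-! continuity -/

lemma continuousOn_W : ContinuousOn (fun p : Euc n × Euc n => C.W p.1 p.2) {p | p.1 ≠ 0} :=
  (C.continuousOn_asy ha).comp (f := fun p : Euc n × Euc n => (0, C.dir 0 p.1, p.2))
    C.bas_cont_tri fun _ hp => C.un_dir0 hp
lemma continuousOn_b : ContinuousOn (fun p : Euc n × Euc n => C.b p.1 p.2) {p | p.1 ≠ 0} :=
  (C.continuousOn_bus ha).comp (f := fun p : Euc n × Euc n => (0, C.dir 0 p.1, p.2))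
    C.bas_cont_tri fun _ hp => C.un_dir0 hp
lemma continuousOn_ep :
    ContinuousOn (fun p : Euc n × Euc N => C.ep p.1 p.2) {p | C.Un p.1 p.2} := by
  have h := (C.continuousOn_asy ha).comp (f := fun p : Euc n × Euc N => (p.1, p.2, 0))
    (s := {p | C.Un p.1 p.2}) (by fun_prop) fun _ hp => hp
  exact C.ex_smooth.continuous.comp_continuousOn
    (f := fun p : Euc n × Euc N => (0, C.asy p.1 p.2 0)) (continuousOn_const.prodMk h)
lemma continuousOn_act (hg : C.Deck g) : ContinuousOn (C.act g) {ξ | ξ ≠ 0} :=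
  (C.continuousOn_ep ha).comp (f := fun ξ => (g 0, C.dir 0 ξ))
    (continuousOn_const.prodMk C.bas_cont_dir0) fun _ hξ => (Deck.un C hg).2 (C.un_dir0 hξ)
lemma continuousOn_be (hg : C.Deck g) : ContinuousOn (C.be g) {ξ | ξ ≠ 0} :=
  ((C.continuousOn_b ha).comp (f := fun ξ => (C.act g ξ, g 0))
    ((C.continuousOn_act ha hg).prodMk continuousOn_const) fun _ hξ =>
      C.ep_ne_zero ha ((Deck.un C hg).2 (C.un_dir0 hξ))).neg

/-! deck maps -/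

lemma norm_act (hg : C.Deck g) (hξ : ξ ≠ 0) : ‖C.act g ξ‖ = 1 :=
  C.norm_ep ha ((Deck.un C hg).2 (C.un_dir0 hξ))
lemma act_ne_zero (hg : C.Deck g) (hξ : ξ ≠ 0) : C.act g ξ ≠ 0 :=
  bas_ne0 (C.norm_act ha hg hξ)
lemma W_act (hg : C.Deck g) (hξ : ξ ≠ 0) (y : Euc n) : C.W (C.act g ξ) (g y) = C.W ξ y := by
  rw [act, C.W_ep ha ((Deck.un C hg).2 (C.un_dir0 hξ)), Deck.asy_eq C hg (C.un_dir0 hξ), W]
lemma b_act (hg : C.Deck g) (hξ : ξ ≠ 0) (y : Euc n) :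
    C.b (C.act g ξ) (g y) = C.b ξ y - C.be g ξ := by
  have h := (Deck.un C hg).2 (C.un_dir0 hξ)
  have h0 : C.bus 0 (C.dir 0 ξ) 0 = 0 := C.b_zero ha hξ
  rw [be, act, C.b_ep ha h, C.b_ep ha h, Deck.bus_eq C hg (C.un_dir0 hξ),
    Deck.bus_eq C hg (C.un_dir0 hξ), h0, b]
  ring
/-- `be g ξ = b ξ (g⁻¹ 0)` -/
lemma be_eq (hg : C.Deck g) (hξ : ξ ≠ 0) (hy : g y = 0) : C.be g ξ = C.b ξ y := by
  have h := C.b_act ha hg hξ y
  rw [hy, C.b_zero ha (C.act_ne_zero ha hg hξ)] at h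
  linarith
lemma act_ep (hg : C.Deck g) (hv : C.Un x v) : C.act g (C.ep x v) = C.ep (g x) v := by
  have h := C.ep_ne_zero ha hv
  rw [← C.ep_W ha (C.norm_act ha hg h) (g x), C.W_act ha hg h, C.W_ep_self ha hv]
lemma act_eq_ep (hg : C.Deck g) (hξ : ξ ≠ 0) (y : Euc n) :
    C.act g ξ = C.ep (g y) (C.W ξ y) := by
  rw [← C.ep_W ha (C.norm_act ha hg hξ) (g y), C.W_act ha hg hξ]
lemma act_id (hξ : ‖ξ‖ = 1) : C.act id ξ = ξ :=
  (C.act_eq_ep ha C.deck_id (bas_ne0 hξ) 0).trans (C.ep_W ha hξ 0)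
lemma be_id (hξ : ξ ≠ 0) : C.be id ξ = 0 :=
  (C.be_eq ha C.deck_id hξ rfl).trans (C.b_zero ha hξ)
lemma act_comp (hg : C.Deck g) (hg' : C.Deck g') (hξ : ξ ≠ 0) :
    C.act (g ∘ g') ξ = C.act g (C.act g' ξ) :=
  (C.act_ep ha hg ((Deck.un C hg').2 (C.un_dir0 hξ))).symm
lemma be_comp (hg : C.Deck g) (hg' : C.Deck g') (hξ : ξ ≠ 0) :
    C.be (g ∘ g') ξ = C.be g (C.act g' ξ) + C.be g' ξ := by
  have h1 := C.b_act ha (Deck.comp C hg hg') hξ 0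
  have h2 := C.b_act ha hg (C.act_ne_zero ha hg' hξ) (g' 0)
  rw [C.b_act ha hg' hξ, ← C.act_comp ha hg hg' hξ] at h2
  linarith [h1.symm.trans h2]
lemma act_inj (hg : C.Deck g) (hξ : ‖ξ‖ = 1) (hη : ‖η‖ = 1) (h : C.act g ξ = C.act g η) :
    ξ = η :=
  C.W_inj ha (y := 0) hξ hη (by rw [← C.W_act ha hg (bas_ne0 hξ), h, C.W_act ha hg (bas_ne0 hη)])
lemma act_GG (hg : C.Deck g) (h : (ξ, η) ∈ GG n) : (C.act g ξ, C.act g η) ∈ GG n :=
  ⟨C.norm_act ha hg (bas_ne0 h.1), C.norm_act ha hg (bas_ne0 h.2.1),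
    fun e => h.2.2 (C.act_inj ha hg h.1 h.2.1 e)⟩
omit ha in
lemma Deck.iterate (hg : C.Deck g) (k : ℕ) : C.Deck g^[k] := by
  induction k with
  | zero => exact C.deck_id
  | succ k ih => exact Deck.comp C ih hg
lemma act_iterate (hg : C.Deck g) (hξ : ‖ξ‖ = 1) (k : ℕ) :
    C.act g^[k] ξ = (C.act g)^[k] ξ := by
  induction k with
  | zero => exact C.act_id ha hξ
  | succ k ih =>
    rw [Function.iterate_succ', C.act_comp ha hg (Deck.iterate C hg k) (bas_ne0 hξ), ih,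
      Function.iterate_succ_apply']

end Crest.Agent.N221.Cov
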