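import Crest.Agent.N221.D.Bas

/-!
Row 221, block D: the chart `(ξ, η, s)` of the unit tangent bundle of the cover and the Gromov
function `cc`.
-/

set_option autoImplicit false
set_option linter.unusedSectionVars false
set_option linter.unusedVariables false

open MeasureTheory Set Filter Topology
open scoped ContDiff RealInnerProductSpace ENNReal
open Crest.GeometryTopology.Submanifold
open Crest.Agent.R241.DDefs Crest.Agent.R241.D2
open Crest.Agent.R208.J Crest.Agent.R208.L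

noncomputable section

namespace Crest.Agent.N221.Cov

variable {n N : ℕ} {a : ℝ} {S : Set (Euc N)} {G : Geo n N (-(a ^ 2)) S} (C : Cov G)

variable {x y z ξ η : Euc n} {v w : Euc N} {g : Euc n → Euc n} {s t : ℝ}

omit C in
lemma GG_sub : GG n ⊆ GO n := fun p h =>
  ⟨norm_ne_zero_iff.1 (by rw [h.1]; exact one_ne_zero),
    norm_ne_zero_iff.1 (by rw [h.2.1]; exact one_ne_zero), by simpa [h.1, h.2.1] using h.2.2⟩
omit C in
lemma isOpen_GO : IsOpen (GO n) := by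
  refine isOpen_iff_mem_nhds.2 fun p hp => ?_
  have h1 := norm_ne_zero_iff.2 hp.1
  have h2 := norm_ne_zero_iff.2 hp.2.1
  have h3 : ContinuousAt (fun p : Euc n × Euc n => ‖p.1‖⁻¹ • p.1 - ‖p.2‖⁻¹ • p.2) p := by
    fun_prop (disch := assumption)
  filter_upwards [continuousAt_fst.eventually_ne hp.1, continuousAt_snd.eventually_ne hp.2.1,
    h3.eventually_ne (sub_ne_zero.2 hp.2.2)] with q a1 a2 a3 using ⟨a1, a2, sub_ne_zero.1 a3⟩
omit C in
lemma GO_symm (h : (ξ, η) ∈ GO n) : (η, ξ) ∈ GO n := ⟨h.2.1, h.1, h.2.2.symm⟩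
omit C in
lemma GO_normalize (h : (ξ, η) ∈ GO n) : (‖ξ‖⁻¹ • ξ, ‖η‖⁻¹ • η) ∈ GG n :=
  ⟨by rw [norm_smul, norm_inv, norm_norm, inv_mul_cancel₀ (norm_ne_zero_iff.2 h.1)],
    by rw [norm_smul, norm_inv, norm_norm, inv_mul_cancel₀ (norm_ne_zero_iff.2 h.2.1)], h.2.2⟩
/-- `W_smul`, `b_smul`: the same predicate under `epsilon` -/
lemma ft_smul {r r' : ℝ} (hr : 0 < r) (hr' : 0 < r') (ξ η : Euc n) (s : ℝ) :
    C.ft (r • ξ) (r' • η) s = C.ft ξ η s := by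
  simp only [ft, C.W_smul hr, C.W_smul hr', C.b_smul hr]
lemma cc_smul {r r' : ℝ} (hr : 0 < r) (hr' : 0 < r') (ξ η : Euc n) :
    C.cc (r • ξ) (r' • η) = C.cc ξ η := by
  simp only [cc, C.ft_smul hr hr', C.b_smul hr, C.b_smul hr']

variable (ha : 0 < a)
include ha

lemma ep_GG (hv : C.Un x v) : (C.ep x v, C.ep x (-v)) ∈ GG n :=
  ⟨C.norm_ep ha hv, C.norm_ep ha hv.neg, C.ep_ne_neg ha hv⟩
lemma inner_W_lt (h : (ξ, η) ∈ GO n) (y : Euc n) : ⟪C.W ξ y, C.W η y⟫ < 1 := by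
  obtain ⟨h1, h2, h3⟩ := GO_normalize h
  refine (inner_lt_one_iff_real_of_norm_eq_one (C.un_W ha h.1 y).norm (C.un_W ha h.2.1 y).norm).2
    fun e => h3 (C.W_inj ha (y := y) h1 h2 ?_)
  rwa [C.W_smul (inv_pos.2 (norm_pos_iff.2 h.1)), C.W_smul (inv_pos.2 (norm_pos_iff.2 h.2.1))]
lemma act_GO (hg : C.Deck g) (h : (ξ, η) ∈ GO n) : (C.act g ξ, C.act g η) ∈ GG n := by
  have := C.act_GG ha hg (GO_normalize h)
  rwa [C.act_smul (inv_pos.2 (norm_pos_iff.2 h.1)),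
    C.act_smul (inv_pos.2 (norm_pos_iff.2 h.2.1))] at this
lemma slide (hξ : ξ ≠ 0) (hη : η ≠ 0) (hx : C.W η x = -C.W ξ x) (t : ℝ) :
    C.W η (C.gd x (C.W ξ x) t) = -C.W ξ (C.gd x (C.W ξ x) t) := by
  have := C.W_gd ha hη x (-t)
  rwa [hx, C.gd_neg, C.vel_neg (C.un_W ha hξ x).mem, neg_neg, ← C.W_gd ha hξ] at this
/-- `visib` at `0` with `c = ⟪dir 0 ξ, dir 0 η⟫ < 1`, then slide along the geodesic (`W_gd`, `b_gd`,
`gd_neg`, `vel_neg`) -/
lemma ft_spec (h : (ξ, η) ∈ GO n) (s : ℝ) :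
    C.W η (C.ft ξ η s) = -C.W ξ (C.ft ξ η s) ∧ C.b ξ (C.ft ξ η s) = -s := by
  refine Classical.epsilon_spec (p := fun x => C.W η x = -C.W ξ x ∧ C.b ξ x = -s) ?_
  have h1 := C.inner_W_lt ha h 0
  rw [C.W_zero ha h.1, C.W_zero ha h.2.1] at h1
  obtain ⟨m, u, -, rfl, h2, -⟩ := C.visib ha (C.un_dir0 h.1) (C.un_dir0 h.2.1) le_rfl h1
  exact ⟨C.gd m (C.W ξ m) (C.b ξ m + s), C.slide ha h.1 h.2.1 h2.symm _,
    by rw [C.b_gd ha h.1]; ring⟩
/-- `b ξ + b η` is minimal on the geodesic: for `W η x = -W ξ x`, `u = W ξ x`,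
`2 t = dd (gd x u t) (gd x (-u) t) ≤ dd y (gd x u t) + dd y (gd x (-u) t)`, `tendsto_b` -/
lemma b_add_b_le (hξ : ξ ≠ 0) (hη : η ≠ 0) (hx : C.W η x = -C.W ξ x) (y : Euc n) :
    C.b ξ x + C.b η x ≤ C.b ξ y + C.b η y := by
  have h := ge_of_tendsto (b := 0) ((C.tendsto_b ha hξ x y).add (C.tendsto_b ha hη x y))
    (Eventually.of_forall fun t => by
      have h1 := C.dd_triangle ha.le (C.gd x (C.W ξ x) (-t)) y (C.gd x (C.W ξ x) t)
      rw [(C.un_W ha hξ x).dd_gd, C.dd_comm _ y] at h1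
      rw [hx, C.gd_neg]
      linarith [le_abs_self (t - -t)])
  linarith
/-- quantitative form, from `cat` for the geodesic from `gd x (-u) t` to `gd x u t` at the
parameter `t`, `p = y`, `t → ∞`: `2 cosh (a dd y x) ≤ e^{a (b η y - b η x)} + e^{a (b ξ y - b ξ x)}` -/
lemma cosh_dd_le (hξ : ξ ≠ 0) (hη : η ≠ 0) (hx : C.W η x = -C.W ξ x) (y : Euc n) :
    2 * Real.cosh (a * C.dd y x) ≤
      Real.exp (a * (C.b η y - C.b η x)) + Real.exp (a * (C.b ξ y - C.b ξ x)) := by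
  have hu := C.un_W ha hξ x
  have key : ∀ d t : ℝ, 0 ≤ d → 2 * Real.cosh (a * d) ≤
      (Real.exp (a * (d - t)) + Real.exp (-(a * t))) * Real.exp (a * t) := fun d t hd => by
    rw [add_mul, ← Real.exp_add, ← Real.exp_add, neg_add_cancel, Real.exp_zero, Real.cosh_eq,
      show a * (d - t) + a * t = a * d by ring]
    have : Real.exp (-(a * d)) ≤ 1 := Real.exp_le_one_iff.2 (neg_nonpos.2 (by positivity))
    linarith
  have h := ge_of_tendsto (b := 2 * Real.cosh (a * C.dd y x))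
    ((((C.tendsto_b ha hη x y).const_mul a).rexp.add
      ((C.tendsto_b ha hξ x y).const_mul a).rexp).add (BdyAux.tendsto_exp ha tendsto_id 2))
    ((eventually_gt_atTop 0).mono fun t ht => by
      have h1 := C.cat ha (hu.vel C (-t)) y ht.le (r := 2 * t) (by linarith)
      rw [C.gd_add hu.mem, C.gd_add hu.mem, neg_add_cancel, C.gd_zero, show -t + 2 * t = t by ring,
        show 2 * t - t = t by ring, show a * (2 * t) = 2 * (a * t) by ring, Real.sinh_two_mul,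
        ← mul_add, mul_comm 2, mul_assoc, mul_assoc] at h1
      have h2 := le_of_mul_le_mul_left h1 (Real.sinh_pos_iff.2 (mul_pos ha ht))
      have h3 := key _ t (C.dd_nonneg y (C.gd x (C.W ξ x) (-t)))
      have h4 := key _ t (C.dd_nonneg y (C.gd x (C.W ξ x) t))
      have h5 : Real.exp (a * t) ≤ 2 * Real.cosh (a * t) := by
        rw [Real.cosh_eq]
        linarith [Real.exp_pos (-(a * t))]
      have h6 := mul_le_mul_of_nonneg_right h5 (Real.cosh_pos (a * C.dd y x)).le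
      rw [hx, C.gd_neg]
      refine le_of_mul_le_mul_right ?_ (Real.exp_pos (a * t))
      simp only [id]
      linarith)
  simpa using h
/-- uniqueness: both points minimise `b ξ + b η` (`b_add_b_le` twice), then `cosh_dd_le` -/
lemma eq_ft (h : (ξ, η) ∈ GO n) (hx : C.W η x = -C.W ξ x) (hs : C.b ξ x = -s) :
    x = C.ft ξ η s := by
  obtain ⟨h1, h2⟩ := C.ft_spec ha h s
  have h3 := C.b_add_b_le ha h.1 h.2.1 hx (C.ft ξ η s)
  have h4 := C.b_add_b_le ha h.1 h.2.1 h1 x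
  have h5 := C.cosh_dd_le ha h.1 h.2.1 h1 x
  rw [show C.b η x - C.b η (C.ft ξ η s) = 0 by linarith, hs, h2, sub_self, mul_zero,
    Real.exp_zero] at h5
  by_contra e
  linarith [Real.one_lt_cosh.2 (mul_pos ha (C.dd_pos e)).ne']
lemma cc_eq (h : (ξ, η) ∈ GO n) (hx : C.W η x = -C.W ξ x) :
    C.cc ξ η = -(C.b ξ x + C.b η x) := by
  have h3 := C.b_add_b_le ha h.1 h.2.1 hx (C.ft ξ η 0)
  have h4 := C.b_add_b_le ha h.1 h.2.1 (C.ft_spec ha h 0).1 x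
  rw [cc, le_antisymm h3 h4]
lemma b_ft' (h : (ξ, η) ∈ GO n) (s : ℝ) : C.b η (C.ft ξ η s) = s - C.cc ξ η := by
  rw [C.cc_eq ha h (C.ft_spec ha h s).1, (C.ft_spec ha h s).2]
  ring
lemma cc_symm (h : (ξ, η) ∈ GO n) : C.cc η ξ = C.cc ξ η := by
  rw [C.cc_eq ha (GO_symm h) (x := C.ft ξ η 0) (by rw [(C.ft_spec ha h 0).1, neg_neg]), add_comm, cc]
lemma neg_cc_le (h : (ξ, η) ∈ GO n) (y : Euc n) : -C.cc ξ η ≤ C.b ξ y + C.b η y := by
  rw [cc, neg_neg]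
  exact C.b_add_b_le ha h.1 h.2.1 (C.ft_spec ha h 0).1 y
lemma cc_nonneg (h : (ξ, η) ∈ GO n) : 0 ≤ C.cc ξ η := by
  have := C.neg_cc_le ha h 0
  rw [C.b_zero ha h.1, C.b_zero ha h.2.1] at this
  linarith
lemma ft_symm (h : (ξ, η) ∈ GO n) (s : ℝ) : C.ft η ξ s = C.ft ξ η (C.cc ξ η - s) :=
  C.eq_ft ha h (by rw [(C.ft_spec ha (GO_symm h) s).1, neg_neg])
    (by rw [C.b_ft' ha (GO_symm h), C.cc_symm ha h, neg_sub])
/-- the flow is the translation in `s` -/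
lemma gd_ft (h : (ξ, η) ∈ GO n) (s t : ℝ) :
    C.gd (C.ft ξ η s) (C.W ξ (C.ft ξ η s)) t = C.ft ξ η (s + t) :=
  C.eq_ft ha h (C.slide ha h.1 h.2.1 (C.ft_spec ha h s).1 t)
    (by rw [C.b_gd ha h.1, (C.ft_spec ha h s).2]; ring)
lemma vel_ft (h : (ξ, η) ∈ GO n) (s t : ℝ) :
    C.vel (C.ft ξ η s) (C.W ξ (C.ft ξ η s)) t = C.W ξ (C.ft ξ η (s + t)) := by
  rw [← C.gd_ft ha h, C.W_gd ha h.1]
/-- the chart and its inverse -/
lemma ft_ep (hv : C.Un x v) : C.ft (C.ep x v) (C.ep x (-v)) (-C.b (C.ep x v) x) = x :=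
  (C.eq_ft ha (GG_sub (C.ep_GG ha hv)) (by rw [C.W_ep_self ha hv, C.W_ep_self ha hv.neg])
    (neg_neg _).symm).symm
lemma ep_ft (h : (ξ, η) ∈ GG n) (s : ℝ) : C.ep (C.ft ξ η s) (C.W ξ (C.ft ξ η s)) = ξ ∧
    C.ep (C.ft ξ η s) (-C.W ξ (C.ft ξ η s)) = η :=
  ⟨C.ep_W ha h.1 _, by rw [← (C.ft_spec ha (GG_sub h) s).1]; exact C.ep_W ha h.2.1 _⟩
lemma ft_act (hg : C.Deck g) (h : (ξ, η) ∈ GO n) (s : ℝ) :
    C.ft (C.act g ξ) (C.act g η) (s + C.be g ξ) = g (C.ft ξ η s) :=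
  (C.eq_ft ha (GG_sub (C.act_GO ha hg h))
    (by rw [C.W_act ha hg h.1, C.W_act ha hg h.2.1, (C.ft_spec ha h s).1])
    (by rw [C.b_act ha hg h.1, (C.ft_spec ha h s).2]; ring)).symm
lemma cc_act (hg : C.Deck g) (h : (ξ, η) ∈ GO n) :
    C.cc (C.act g ξ) (C.act g η) = C.cc ξ η + C.be g ξ + C.be g η := by
  rw [C.cc_eq ha (GG_sub (C.act_GO ha hg h)) (x := g (C.ft ξ η 0))
    (by rw [C.W_act ha hg h.1, C.W_act ha hg h.2.1, (C.ft_spec ha h 0).1]),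
    C.b_act ha hg h.1, C.b_act ha hg h.2.1, cc]
  ring
/-- `gromov_exp` at `y` for `P = gd y (W ξ y) t`, `Q = gd y (W η y) t`, and
`dd P Q ≤ dd P x + dd x Q` with `x` on the geodesic, `tendsto_b` -/
lemma cc_upper (h : (ξ, η) ∈ GO n) (y : Euc n) :
    (1 - ⟪C.W ξ y, C.W η y⟫) * Real.exp (a * (C.cc ξ η + C.b ξ y + C.b η y)) ≤ 4 := by
  set x := C.ft ξ η 0
  have h1 := ge_of_tendsto (b := 1 - ⟪C.W ξ y, C.W η y⟫)
    ((((C.tendsto_b ha h.1 y x).add (C.tendsto_b ha h.2.1 y x)).const_mul a).rexp.const_mul 4)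
    ((eventually_gt_atTop 0).mono fun t ht => by
      have h1 := C.gromov_exp ha y (C.gd y (C.W ξ y) t) (C.gd y (C.W η y) t)
      have h2 := C.dd_triangle ha.le (C.gd y (C.W ξ y) t) x (C.gd y (C.W η y) t)
      rw [(C.un_W ha h.1 y).dir_gd_zero C ht, (C.un_W ha h.2.1 y).dir_gd_zero C ht,
        (C.un_W ha h.1 y).dd_gd_zero, (C.un_W ha h.2.1 y).dd_gd_zero, abs_of_pos ht] at h1
      rw [C.dd_comm _ x] at h2
      refine le_of_mul_le_mul_right (h1.trans ?_) (Real.exp_pos _)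
      rw [mul_assoc, ← Real.exp_add, ← mul_add]
      exact mul_le_mul_of_nonneg_left (Real.exp_le_exp.2
        (mul_le_mul_of_nonneg_left (by linarith) ha.le)) (by norm_num))
  refine (mul_le_mul_of_nonneg_right h1 (Real.exp_pos _).le).trans_eq ?_
  rw [mul_assoc, ← Real.exp_add, cc, ← mul_add, show C.b ξ x - C.b ξ y + (C.b η x - C.b η y) +
    (-(C.b ξ x + C.b η x) + C.b ξ y + C.b η y) = 0 by ring, mul_zero, Real.exp_zero, mul_one]
/-- `neg_cc_le` at `y = R • ξ`: `b ξ y = -R`, `b η y ≤ b η (R • η) + dd` -/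
lemma cc_lower (h : (ξ, η) ∈ GG n) (R : ℝ) : 2 * R - C.dd (R • ξ) (R • η) ≤ C.cc ξ η := by
  have key : ∀ {ξ : Euc n}, ξ ≠ 0 → ‖ξ‖ = 1 → C.b ξ (R • ξ) = -R := fun h0 h1 => by
    rw [← C.gd_dir0 h1, ← C.W_zero ha h0, C.b_gd ha h0, C.b_zero ha h0, zero_sub]
  have h0 := GG_sub h
  have h1 := C.neg_cc_le ha h0 (R • ξ)
  have h2 := (abs_le.1 (C.abs_b_sub_le ha h0.2.1 (R • ξ) (R • η))).2
  rw [key h0.1 h.1] at h1
  rw [key h0.2.1 h.2.1] at h2
  linarith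
/-- `cc → ∞` at the diagonal (uniform continuity of `dd (R • ξ) (R • η)` on the sphere) -/
lemma cc_proper (M : ℝ) : ∃ δ > 0, ∀ ξ η, (ξ, η) ∈ GG n → ‖ξ - η‖ < δ → M < C.cc ξ η := by
  have hR : 0 < |M| + 1 := by positivity
  obtain ⟨K, hK, h⟩ := C.dd_le_on_ball ha.le (|M| + 1)
  refine ⟨(K * (|M| + 1))⁻¹, by positivity, fun ξ η hp hd => ?_⟩
  have h1 := C.cc_lower ha hp (|M| + 1)
  have h2 := h ((|M| + 1) • ξ) ((|M| + 1) • η)
    (by rw [norm_smul, hp.1, mul_one, Real.norm_of_nonneg hR.le])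
    (by rw [norm_smul, hp.2.1, mul_one, Real.norm_of_nonneg hR.le])
  rw [← smul_sub, norm_smul, Real.norm_of_nonneg hR.le, ← mul_assoc] at h2
  have h3 := mul_lt_mul_of_pos_left hd (mul_pos hK hR)
  rw [mul_inv_cancel₀ (mul_pos hK hR).ne'] at h3
  linarith [le_abs_self M, abs_nonneg M]
/-- `cosh_dd_le` with `y = 0` -/
lemma norm_ft_le (h : (ξ, η) ∈ GO n) (s : ℝ) :
    2 * Real.cosh (a * ‖C.ft ξ η s‖) ≤ Real.exp (a * (C.cc ξ η - s)) + Real.exp (a * s) := by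
  have := C.cosh_dd_le ha h.1 h.2.1 (C.ft_spec ha h s).1 0
  rwa [C.dd_zero, C.b_zero ha h.1, C.b_zero ha h.2.1, C.b_ft' ha h, (C.ft_spec ha h s).2, zero_sub,
    zero_sub, neg_neg, neg_sub] at this
lemma tendsto_W_of {α : Type*} {l : Filter α} {f p : α → Euc n} (hξ : ξ ≠ 0)
    (hf : Tendsto f l (𝓝 ξ)) (hp : Tendsto p l (𝓝 x)) :
    Tendsto (fun k => C.W (f k) (p k)) l (𝓝 (C.W ξ x)) :=
  Tendsto.comp (g := fun p : Euc n × Euc n => C.W p.1 p.2) (f := fun k => (f k, p k))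
    ((C.continuousOn_W ha).continuousAt (x := (ξ, x))
      ((isOpen_ne_fun continuous_fst continuous_const).mem_nhds hξ)) (hf.prodMk_nhds hp)
lemma tendsto_b_of {α : Type*} {l : Filter α} {f p : α → Euc n} (hξ : ξ ≠ 0)
    (hf : Tendsto f l (𝓝 ξ)) (hp : Tendsto p l (𝓝 x)) :
    Tendsto (fun k => C.b (f k) (p k)) l (𝓝 (C.b ξ x)) :=
  Tendsto.comp (g := fun p : Euc n × Euc n => C.b p.1 p.2) (f := fun k => (f k, p k))
    ((C.continuousOn_b ha).continuousAt (x := (ξ, x))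
      ((isOpen_ne_fun continuous_fst continuous_const).mem_nhds hξ)) (hf.prodMk_nhds hp)
/-- locally bounded (`norm_ft_le`, `cc_upper` at `y = 0`) with closed graph (`eq_ft`, continuity of
`W`, `b`) -/
lemma continuousOn_ft :
    ContinuousOn (fun p : (Euc n × Euc n) × ℝ => C.ft p.1.1 p.1.2 p.2) (GO n ×ˢ univ) := by
  rintro ⟨⟨ξ, η⟩, s⟩ ⟨h, -⟩
  refine ContinuousAt.continuousWithinAt ?_
  have t1 : Tendsto (fun p : (Euc n × Euc n) × ℝ => p.1.1) (𝓝 ((ξ, η), s)) (𝓝 ξ) :=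
    (continuous_fst.comp continuous_fst).tendsto _
  have t2 : Tendsto (fun p : (Euc n × Euc n) × ℝ => p.1.2) (𝓝 ((ξ, η), s)) (𝓝 η) :=
    (continuous_snd.comp continuous_fst).tendsto _
  have t3 : Tendsto (fun p : (Euc n × Euc n) × ℝ => p.2) (𝓝 ((ξ, η), s)) (𝓝 s) :=
    continuous_snd.tendsto _
  have e1 : ∀ᶠ p : (Euc n × Euc n) × ℝ in 𝓝 ((ξ, η), s), p.1 ∈ GO n :=
    (continuous_fst.tendsto _).eventually (isOpen_GO.mem_nhds h)
  have t4 := (((((C.tendsto_W_of ha h.1 t1 (tendsto_const_nhds (x := 0))).inner (𝕜 := ℝ)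
    (C.tendsto_W_of ha h.2.1 t2 (tendsto_const_nhds (x := 0)))).const_sub 1).inv₀
    (sub_pos.2 (C.inner_W_lt ha h 0)).ne').const_mul 4).mul (t3.const_mul a).neg.rexp |>.add
    (t3.const_mul a).rexp
  obtain ⟨B, hB⟩ := t4.isBoundedUnder_le
  refine (isCompact_closedBall (0 : Euc n) (B / a)).tendsto_nhds_of_unique_mapClusterPt ?_
    fun x _ hx => ?_
  · filter_upwards [e1, eventually_map.1 hB] with p hp hb
    have h1 := C.norm_ft_le ha hp p.2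
    have h2 := C.cc_upper ha hp 0
    have h3 := sub_pos.2 (C.inner_W_lt ha hp 0)
    rw [C.b_zero ha hp.1, C.b_zero ha hp.2.1, add_zero, add_zero, mul_comm, ← le_div_iff₀ h3,
      div_eq_mul_inv] at h2
    have h4 := mul_le_mul_of_nonneg_right h2 (Real.exp_pos (-(a * p.2))).le
    rw [← Real.exp_add, ← sub_eq_add_neg, ← mul_sub] at h4
    rw [mem_closedBall_zero_iff, le_div_iff₀ ha, mul_comm]
    rw [Real.cosh_eq] at h1
    linarith [Real.add_one_le_exp (a * ‖C.ft p.1.1 p.1.2 p.2‖),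
      Real.exp_pos (-(a * ‖C.ft p.1.1 p.1.2 p.2‖))]
  · obtain ⟨U, hU, hx⟩ := mapClusterPt_iff_ultrafilter.1 hx
    refine C.eq_ft ha h (tendsto_nhds_unique_of_eventuallyEq
      (C.tendsto_W_of ha h.2.1 (t2.mono_left hU) hx) (C.tendsto_W_of ha h.1 (t1.mono_left hU) hx).neg
      ((e1.filter_mono hU).mono fun p hp => (C.ft_spec ha hp p.2).1))
      (tendsto_nhds_unique_of_eventuallyEq (C.tendsto_b_of ha h.1 (t1.mono_left hU) hx)
        (t3.mono_left hU).neg ((e1.filter_mono hU).mono fun p hp => (C.ft_spec ha hp p.2).2))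
lemma continuousOn_cc : ContinuousOn (fun p : Euc n × Euc n => C.cc p.1 p.2) (GO n) := by
  intro p hp
  have h : ContinuousWithinAt (fun p : Euc n × Euc n => C.ft p.1 p.2 0) (GO n) p :=
    ((C.continuousOn_ft ha).comp (f := fun p : Euc n × Euc n => (p, (0 : ℝ))) (by fun_prop)
      fun _ h => ⟨h, trivial⟩) p hp
  exact ((C.tendsto_b_of ha hp.1 continuous_fst.continuousWithinAt h).add
    (C.tendsto_b_of ha hp.2.1 continuous_snd.continuousWithinAt h)).neg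
/-- cocompactness in the chart: `K` = image of `{(x, v) | ‖x‖ ≤ D, Un x v}`, `exists_deck` -/
lemma cocompact : ∃ K : Set ((Euc n × Euc n) × ℝ), IsCompact K ∧ K ⊆ GG n ×ˢ univ ∧
    ∀ ξ η s, (ξ, η) ∈ GG n → ∃ g, C.Deck g ∧
      ((C.act g ξ, C.act g η), s + C.be g ξ) ∈ K := by
  obtain ⟨D, -, hD⟩ := C.exists_deck
  have hc : IsCompact {p : Euc n × Euc N | ‖p.1‖ ≤ D ∧ C.Un p.1 p.2} := by
    refine ((isCompact_closedBall (0 : Euc n) D).prod
      (isCompact_closedBall (0 : Euc N) 1)).of_isClosed_subset ((isClosed_le continuous_fst.norm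
      continuous_const).inter ((isClosed_US G).preimage (f := fun p : Euc n × Euc N =>
        (C.pr p.1, p.2)) ((C.pr_smooth.continuous.comp continuous_fst).prodMk continuous_snd)))
      fun p hp => ⟨mem_closedBall_zero_iff.2 hp.1, mem_closedBall_zero_iff.2 hp.2.norm.le⟩
  have c1 := (C.continuousOn_ep ha).mono (t := {p : Euc n × Euc N | ‖p.1‖ ≤ D ∧ C.Un p.1 p.2})
    fun _ h => h.2
  have c2 : ContinuousOn (fun p : Euc n × Euc N => C.ep p.1 (-p.2)) {p | ‖p.1‖ ≤ D ∧ C.Un p.1 p.2} :=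
    (C.continuousOn_ep ha).comp (f := fun p : Euc n × Euc N => (p.1, -p.2)) (by fun_prop)
      fun _ h => h.2.neg
  have c3 : ContinuousOn (fun p : Euc n × Euc N => C.b (C.ep p.1 p.2) p.1)
      {p | ‖p.1‖ ≤ D ∧ C.Un p.1 p.2} := fun p hp =>
    C.tendsto_b_of ha (C.ep_ne_zero ha hp.2) (c1 p hp) continuous_fst.continuousWithinAt
  refine ⟨_, hc.image_of_continuousOn ((c1.prodMk c2).prodMk c3.neg), ?_, fun ξ η s h => ?_⟩
  · rintro _ ⟨p, hp, rfl⟩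
    exact ⟨C.ep_GG ha hp.2, trivial⟩
  · obtain ⟨g, hg, hx⟩ := hD (C.ft ξ η s)
    have h0 := GG_sub h
    have hu := C.un_W ha h0.1 (C.ft ξ η s)
    refine ⟨g, hg, (g (C.ft ξ η s), C.W ξ (C.ft ξ η s)), ⟨hx, (hg.un C).2 hu⟩, ?_⟩
    simp only [Pi.neg_apply]
    rw [← C.act_ep ha hg hu, ← C.act_ep ha hg hu.neg, (C.ep_ft ha h s).1, (C.ep_ft ha h s).2,
      C.b_act ha hg h0.1, (C.ft_spec ha h0 s).2]
    congr 1
    ring

end Crest.Agent.N221.Cov
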