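import Crest.Agent.N221.D.Bas
import Crest.Agent.N221.C.Loc
import Crest.Agent.N221.H.Cob

/-!
Row 221, block D: bridge between the horospherical structure `H.IsHor` and the cover.
`W ξ ·`, `b ξ ·`, `U (rev (pr ·, W ξ ·))`, `α (rev (pr ·, W ξ ·))` are smooth maps from the cover to
the Banach space of continuous functions of `ξ` on the unit sphere (all `y`-jets continuous in `ξ`).
-/

set_option autoImplicit false
set_option linter.unusedSectionVars false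
set_option linter.unusedVariables false

open MeasureTheory Set Filter Topology
open scoped ContDiff RealInnerProductSpace ENNReal
open Crest.GeometryTopology.Submanifold
open Crest.Agent.R241.DDefs Crest.Agent.R241.D2
open Crest.Agent.R208.J Crest.Agent.R208.L

noncomputable section

namespace Crest.Agent.N221.Cov

variable {n N : ℕ} {a : ℝ} {S : Set (Euc N)} {G : Geo n N (-(a ^ 2)) S} (C : Cov G)

open H Metric

variable (H : Hyp n N a S)
include H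

/-- the direction and the Busemann function from the horospherical structure -/
lemma hor_eq2 [CompactSpace (US G)] {ρ : Euc N → Euc N} {T r : ℝ} {V : Euc N → C(US G, Euc N)}
    {β : Euc N → C(US G, ℝ)} {u : Euc N → BoundedContinuousFunction (US G × ℕ) (TT N)}
    (h : IsHor G ρ T r V β u) : ∃ r1 > 0, r1 ≤ r ∧ ∀ y₀ y v (hv : C.Un y₀ v), C.dd y₀ y < r1 →
      pt ρ V (C.pr y - C.pr y₀) ⟨(C.pr y₀, v), hv⟩ = (C.pr y, C.asy y₀ v y) ∧
      β (C.pr y - C.pr y₀) ⟨(C.pr y₀, v), hv⟩ = C.bus y₀ v y := by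
  have ha := H.a_pos
  obtain ⟨ε₀, hε₀, hl⟩ := C.lift_close H
  obtain ⟨r0, hr0, h0, -⟩ := C.exists_r0 H
  set ε := min ε₀ (r0 / 2) with hε
  have ε0 : 0 < ε := by positivity
  obtain ⟨r1, h1, r1r, hs⟩ := Cb.shadow H h ε0
  refine ⟨min r1 ε, by positivity, (min_le_left _ _).trans r1r, fun y₀ y v hv hd => ?_⟩
  rw [lt_min_iff] at hd
  set z : US G := ⟨(C.pr y₀, v), hv⟩ with hz
  set η := C.pr y - C.pr y₀ with hη
  have hη1 : η ∈ ball (0 : Euc N) r1 := by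
    rw [mem_ball_zero_iff, hη, norm_sub_rev]
    exact (C.pr_sub_le y₀ y).trans_lt hd.1
  have hηr := ball_subset_ball r1r hη1
  set w := V η z with hw
  have hp : pt ρ V η z = (C.pr y, w) := by
    refine Prod.ext ?_ rfl
    change ρ (C.pr y₀ + (C.pr y - C.pr y₀)) = C.pr y
    rw [add_sub_cancel, h.ret.eq _ (C.pr_mem y)]
  have hu : C.Un y w := by
    have := h.mem η hηr z
    rwa [hp] at this
  obtain ⟨hb, hs⟩ := hs η hη1 z
  set B := β η z with hB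
  have up : ∀ t, ‖C.pr (C.gd y w (B + t)) - C.pr (C.gd y₀ v t)‖ ≤
      dist (fl G (pt ρ V η z, B + t)) (fl G (z, t)) := fun t => by
    rw [hp, C.up_gd hu.mem, hz, C.up_gd hv.mem, ← dist_eq_norm]
    exact le_max_left _ _
  have cl : ∀ t, 0 ≤ t → C.dd (C.gd y w (B + t)) (C.gd y₀ v t) ≤ 2 * ε := fun t ht =>
    hl ε (min_le_left _ _) (fun t => C.gd y w (B + t)) (C.gd y₀ v) 0 t
      ((C.contDiff_gd_t y w).continuous.comp (by fun_prop)).continuousOn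
      (C.contDiff_gd_t y₀ v).continuous.continuousOn (by
        have h2 := C.dd_triangle ha.le (C.gd y w B) y y₀
        rw [C.dd_comm _ y, hu.dd_gd_zero, C.dd_comm y] at h2
        simp only [add_zero, C.gd_zero]
        linarith [hd.2])
      (fun s hs' => (up s).trans (hs s hs'.1)) t ⟨ht, le_rfl⟩
  have e1 : w = C.asy y₀ v y := C.eq_asy ha hv hu (B := ε + 2 * ε) fun s hs' => by
    have h2 := C.dd_triangle ha.le (C.gd y w s) (C.gd y w (B + s)) (C.gd y₀ v s)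
    rw [hu.dd_gd, add_sub_cancel_right] at h2
    linarith [cl s hs']
  refine ⟨by rw [hp, e1], ?_⟩
  rw [← sub_eq_zero, ← abs_nonpos_iff]
  have lim := (Cb.hasSum_half ‖u η‖).summable.tendsto_atTop_zero.const_mul 2
  rw [mul_zero] at lim
  refine ge_of_tendsto' lim fun k => ?_
  have T0 : 0 ≤ ((k : ℝ) + 1) * T := by have := h.T_pos; positivity
  have h2 := C.abs_bus_sub_le ha hv (C.gd y w (B + (k + 1) * T)) (C.gd y₀ v ((k + 1) * T))
  rw [C.bus_gd ha hv, e1, C.bus_gd_asy ha hv, ← e1] at h2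
  have h3 := h0 _ _ ((cl _ T0).trans (by linarith [min_le_right ε₀ (r0 / 2)]))
  have h4 := (up _).trans (Cb.dist_orbit h hηr z k)
  rw [abs_sub_comm, show C.bus y₀ v y - B =
    C.bus y₀ v y - (B + (k + 1) * T) - -((k + 1) * T) by ring]
  linarith

/-- `Cb.shadow` + `lift_close` on `[0, t]` for `gd y w (β + ·)` and `gd y₀ v`, then `eq_asy`
(after the shift `β`, triangle inequality) -/
lemma hor_eq [CompactSpace (US G)] {ρ : Euc N → Euc N} {T r : ℝ} {V : Euc N → C(US G, Euc N)}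
    {β : Euc N → C(US G, ℝ)} {u : Euc N → BoundedContinuousFunction (US G × ℕ) (TT N)}
    (h : IsHor G ρ T r V β u) : ∃ r1 > 0, r1 ≤ r ∧ ∀ y₀ y v (hv : C.Un y₀ v), C.dd y₀ y < r1 →
      pt ρ V (C.pr y - C.pr y₀) ⟨(C.pr y₀, v), hv⟩ = (C.pr y, C.asy y₀ v y) := by
  obtain ⟨r1, h1, h2, h3⟩ := C.hor_eq2 H h
  exact ⟨r1, h1, h2, fun y₀ y v hv hd => (h3 y₀ y v hv hd).1⟩

omit H in
lemma sph_ne (ξ : sphere (0 : Euc n) 1) : (ξ : Euc n) ≠ 0 := ne_zero_of_mem_unit_sphere ξ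

/-- the directions at `y` to the boundary points -/
def kap (y : Euc n) : C(sphere (0 : Euc n) 1, US G) :=
  ⟨fun ξ => ⟨(C.pr y, C.W ξ y), C.un_W H.a_pos (sph_ne ξ) y⟩,
    Continuous.subtype_mk (continuous_const.prodMk ((C.continuousOn_W H.a_pos).comp_continuous
      (f := fun ξ : sphere (0 : Euc n) 1 => ((ξ : Euc n), y)) (by fun_prop) sph_ne)) _⟩

omit H in
lemma ev_dd (y₀ : Euc n) {r : ℝ} (hr : 0 < r) : ∀ᶠ y in 𝓝 y₀, C.dd y₀ y < r :=
  (C.continuous_dd_right y₀).continuousAt.eventually_lt_const ((C.dd_self y₀).trans_lt hr)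

omit H in
lemma mem_ball_of_dd {y₀ y : Euc n} {r : ℝ} (h : C.dd y₀ y < r) :
    C.pr y - C.pr y₀ ∈ ball (0 : Euc N) r := by
  rw [mem_ball_zero_iff, norm_sub_rev]
  exact (C.pr_sub_le y₀ y).trans_lt h

omit H in
lemma contDiffAt_comp_pr {E : Type} [NormedAddCommGroup E] [NormedSpace ℝ E] {A : Euc N → E}
    {r : ℝ} (hr : 0 < r) (hA : ContDiffOn ℝ ∞ A (ball 0 r)) (y₀ : Euc n) :
    ContDiffAt ℝ ∞ (fun y => A (C.pr y - C.pr y₀)) y₀ := by
  refine ContDiffAt.comp (g := A) (f := fun y => C.pr y - C.pr y₀) y₀ ?_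
    (C.pr_smooth.sub contDiff_const).contDiffAt
  rw [sub_self]
  exact hA.contDiffAt (ball_mem_nhds 0 hr)

/-- transfer of smoothness: near `y₀`, `F (pr y, W ξ y) = A (pr y - pr y₀) (pr y₀, W ξ y₀)`, and
precomposition with the continuous map `ξ ↦ (pr y₀, W ξ y₀)` is a continuous linear map
(`ContinuousMap.compRightContinuousMap`, `LinearMap.mkContinuous`) -/
lemma smooth_of_hor [CompactSpace (US G)] {ρ : Euc N → Euc N} {T r : ℝ}
    {V : Euc N → C(US G, Euc N)} {β : Euc N → C(US G, ℝ)}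
    {u : Euc N → BoundedContinuousFunction (US G × ℕ) (TT N)} (h : IsHor G ρ T r V β u)
    {E : Type} [NormedAddCommGroup E] [NormedSpace ℝ E] {F : TT N → E} {r' : ℝ} (hr' : 0 < r')
    {A : Euc N → C(US G, E)} (hA : ContDiffOn ℝ ∞ A (ball 0 r'))
    (eA : ∀ y ∈ ball (0 : Euc N) r', ∀ z : US G, A y z = F (pt ρ V y z)) :
    ∃ B : Euc n → C(sphere (0 : Euc n) 1, E), ContDiff ℝ ∞ B ∧
      ∀ y ξ, B y ξ = F (C.pr y, C.W ξ y) := by
  obtain ⟨r1, h1, -, h3⟩ := C.hor_eq H h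
  have e0 : ∀ y ξ, (A 0).comp (C.kap H y) ξ = F (C.pr y, C.W ξ y) := fun y ξ => by
    rw [ContinuousMap.comp_apply, eA 0 (mem_ball_self hr'), Cb.pt_zero h]
    rfl
  refine ⟨fun y => (A 0).comp (C.kap H y), contDiff_iff_contDiffAt.2 fun y₀ => ?_, e0⟩
  refine ((ContinuousMap.compCLM ℝ E (C.kap H y₀)).contDiff.contDiffAt.comp y₀
    (C.contDiffAt_comp_pr hr' hA y₀)).congr_of_eventuallyEq ?_
  filter_upwards [C.ev_dd y₀ h1, C.ev_dd y₀ hr'] with y hy hy'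
  ext ξ
  rw [e0]
  change _ = A (C.pr y - C.pr y₀) (C.kap H y₀ ξ)
  rw [eA _ (C.mem_ball_of_dd hy'), ← C.asy_W H.a_pos (sph_ne ξ) y₀ y]
  exact congrArg F (h3 y₀ y _ _ hy).symm

omit C in
lemma cptUS (G : Geo n N (-(a ^ 2)) S) : CompactSpace (US G) :=
  isCompact_iff_compactSpace.1 (isCompact_US G H.cpt)

lemma smooth_W (hH : HorS) : ∃ B : Euc n → C(sphere (0 : Euc n) 1, Euc N), ContDiff ℝ ∞ B ∧
    ∀ y ξ, B y ξ = C.W ξ y := by
  have := cptUS H G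
  obtain ⟨ρ, T, r, V, β, u, h⟩ := hH n N a S G H
  exact C.smooth_of_hor H h (F := Prod.snd) h.ret.r_pos h.smW fun _ _ _ => rfl

omit H in
lemma unit_mem {ξ : Euc n} (hξ : ξ ≠ 0) : ‖ξ‖⁻¹ • ξ ∈ sphere (0 : Euc n) 1 := by
  rw [mem_sphere_zero_iff_norm, norm_smul, norm_inv, norm_norm,
    inv_mul_cancel₀ (norm_ne_zero_iff.2 hξ)]

lemma contDiff_W (hH : HorS) {ξ : Euc n} (hξ : ξ ≠ 0) : ContDiff ℝ ∞ (C.W ξ) := by
  obtain ⟨B, hB, e⟩ := C.smooth_W H hH
  have h1 := (ContinuousMap.evalCLM ℝ (M := Euc N) (⟨_, unit_mem hξ⟩ : sphere (0 : Euc n) 1)).contDiff.comp hB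
  convert h1 using 1
  funext y
  rw [← C.W_smul (inv_pos.2 (norm_pos_iff.2 hξ))]
  exact (e y ⟨_, unit_mem hξ⟩).symm

/-- `b ξ y = -∫₀¹ ⟪W ξ (t y), D pr (t y) y⟫ dt`, or: `B y` is continuous in `ξ`, has the derivative
`hasFDerivAt_b` uniformly in `ξ` (mean value inequality), which is smooth -/
lemma smooth_b (hH : HorS) : ∃ B : Euc n → C(sphere (0 : Euc n) 1, ℝ), ContDiff ℝ ∞ B ∧
    ∀ y ξ, B y ξ = C.b ξ y := by
  have := cptUS H G
  obtain ⟨ρ, T, r, V, β, u, h⟩ := hH n N a S G H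
  obtain ⟨r1, h1, -, h3⟩ := C.hor_eq2 H h
  let B : Euc n → C(sphere (0 : Euc n) 1, ℝ) := fun y => ⟨fun ξ => C.b ξ y,
    (C.continuousOn_b H.a_pos).comp_continuous
      (f := fun ξ : sphere (0 : Euc n) 1 => ((ξ : Euc n), y)) (by fun_prop) sph_ne⟩
  refine ⟨B, contDiff_iff_contDiffAt.2 fun y₀ => ?_, fun _ _ => rfl⟩
  refine (((ContinuousMap.compCLM ℝ ℝ (C.kap H y₀)).contDiff.contDiffAt.comp y₀
    (C.contDiffAt_comp_pr h.ret.r_pos h.smβ y₀)).add
      (contDiffAt_const (c := B y₀))).congr_of_eventuallyEq ?_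
  filter_upwards [C.ev_dd y₀ h1] with y hy
  ext ξ
  change C.b ξ y = β (C.pr y - C.pr y₀) (C.kap H y₀ ξ) + C.b ξ y₀
  rw [← sub_eq_iff_eq_add, ← C.bus_W H.a_pos (sph_ne ξ) y₀ y]
  exact (h3 y₀ y _ _ hy).2.symm

lemma contDiff_b (hH : HorS) {ξ : Euc n} (hξ : ξ ≠ 0) : ContDiff ℝ ∞ (C.b ξ) := by
  obtain ⟨B, hB, e⟩ := C.smooth_b H hH
  have h1 := (ContinuousMap.evalCLM ℝ (M := ℝ) (⟨_, unit_mem hξ⟩ : sphere (0 : Euc n) 1)).contDiff.comp hB
  convert h1 using 1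
  funext y
  rw [← C.b_smul (inv_pos.2 (norm_pos_iff.2 hξ))]
  exact (e y ⟨_, unit_mem hξ⟩).symm

/-- `∇ W = -U ∘ rev` (tangential part) -/
lemma fderiv_W (hH : HorS) (hD : DHorS) {ξ : Euc n} (hξ : ξ ≠ 0) (y e : Euc n) :
    G.P (C.pr y) (fderiv ℝ (C.W ξ) y e) =
      -U G (rev (C.pr y, C.W ξ y)) (fderiv ℝ C.pr y e) := by
  have := cptUS H G
  obtain ⟨ρ, T, r, V, β, u, h⟩ := hH n N a S G H
  obtain ⟨r1, h1, -, h3⟩ := C.hor_eq H h
  have r0 := h.ret.r_pos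
  set z : US G := ⟨(C.pr y, C.W ξ y), C.un_W H.a_pos hξ y⟩ with hz
  have dp : HasFDerivAt C.pr (fderiv ℝ C.pr y) y :=
    (C.pr_smooth.differentiable (by simp) y).hasFDerivAt
  have dV : HasFDerivAt V (fderiv ℝ V 0) (C.pr y - C.pr y) := by
    rw [sub_self]
    exact ((h.smW.contDiffAt (ball_mem_nhds 0 r0)).differentiableAt (by simp)).hasFDerivAt
  have d1 := (ContinuousMap.evalCLM ℝ (M := Euc N) z).hasFDerivAt.comp y
    (HasFDerivAt.comp (f := fun y' => C.pr y' - C.pr y) y dV (dp.sub_const (C.pr y)))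
  have d2 : HasFDerivAt (C.W ξ) _ y := d1.congr_of_eventuallyEq (by
    filter_upwards [C.ev_dd y h1] with y' hy'
    rw [← C.asy_W H.a_pos hξ y y']
    exact (congrArg Prod.snd (h3 y y' _ _ hy')).symm)
  have dρ : HasFDerivAt ρ (fderiv ℝ ρ (C.pr y)) (C.pr y) := by
    have := h.ret.smooth _ (C.pr_mem y) 0 (mem_ball_self r0)
    rw [add_zero] at this
    exact (this.differentiableAt (by simp)).hasFDerivAt
  have d3 : (fderiv ℝ ρ (C.pr y)).comp (fderiv ℝ C.pr y) = fderiv ℝ C.pr y := by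
    have := dρ.comp y dp
    rw [show ρ ∘ C.pr = C.pr from funext fun x => h.ret.eq _ (C.pr_mem x)] at this
    exact this.unique dp
  have h4 := ((hD n N a S G H ρ T r V β u h).1 0 (mem_ball_self r0) z (fderiv ℝ C.pr y e)).1
  rw [Cb.pt_zero h, add_zero] at h4
  rw [d2.fderiv]
  refine h4.trans ?_
  change -U G (rev (C.pr y, C.W ξ y)) (((fderiv ℝ ρ (C.pr y)).comp (fderiv ℝ C.pr y)) e) = _
  rw [d3]

/-- full derivative: the normal part is `dP` (`TanTS.snd_eq`) -/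
lemma fderiv_W' (hH : HorS) (hD : DHorS) {ξ : Euc n} (hξ : ξ ≠ 0) (y e : Euc n) :
    fderiv ℝ (C.W ξ) y e = dP G (C.pr y, C.W ξ y) (fderiv ℝ C.pr y e) -
      U G (rev (C.pr y, C.W ξ y)) (fderiv ℝ C.pr y e) := by
  have hl : HasDerivAt (fun s : ℝ => y + s • e) e 0 := by
    simpa using ((hasDerivAt_id (0 : ℝ)).smul_const e).const_add y
  have d1 : HasDerivAt (fun s : ℝ => C.pr (y + s • e)) (fderiv ℝ C.pr y e) 0 :=
    (C.pr_smooth.differentiable (by simp) y).hasFDerivAt.comp_hasDerivAt_of_eq 0 hl (by simp)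
  have d2 : HasDerivAt (fun s : ℝ => C.W ξ (y + s • e)) (fderiv ℝ (C.W ξ) y e) 0 :=
    ((C.contDiff_W H hH hξ).differentiable (by simp) y).hasFDerivAt.comp_hasDerivAt_of_eq 0 hl
      (by simp)
  have ht : Crest.Agent.R208.J.TanTS G (C.pr y, C.W ξ y)
      (fderiv ℝ C.pr y e, fderiv ℝ (C.W ξ) y e) :=
    ⟨fun s => (C.pr (y + s • e), C.W ξ (y + s • e)), by simp, d1.prodMk d2,
      Eventually.of_forall fun s => (C.un_W H.a_pos hξ _).ts⟩
  have h1 := ht.snd_eq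
  simp only at h1
  rw [C.fderiv_W H hH hD hξ] at h1
  rw [h1]
  abel

lemma smooth_A (hH : HorS) (hD : DHorS) : ∃ B : Euc n → C(sphere (0 : Euc n) 1, Op N),
    ContDiff ℝ ∞ B ∧ ∀ y ξ, B y ξ = U G (rev (C.pr y, C.W ξ y)) := by
  have := cptUS H G
  obtain ⟨ρ, T, r, V, β, u, h⟩ := hH n N a S G H
  obtain ⟨-, r', r0, -, A, hA, eA⟩ := hD n N a S G H ρ T r V β u h
  exact C.smooth_of_hor H h (F := fun q => U G (rev q)) r0 hA eA

lemma smooth_al (hH : HorS) (hC : CobHorS) {h : ℝ} {α : TT N → ℝ} (hα : ContinuousOn α (US G))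
    (e : ∀ z ∈ US G, ∀ t : ℝ, St G t z - h * t = α z - α (ph G t z)) :
    ∃ B : Euc n → C(sphere (0 : Euc n) 1, ℝ), ContDiff ℝ ∞ B ∧
      ∀ y ξ, B y ξ = α (rev (C.pr y, C.W ξ y)) := by
  have := cptUS H G
  obtain ⟨ρ, T, r, V, β, u, h'⟩ := hH n N a S G H
  obtain ⟨r', r0, -, A, hA, eA⟩ := hC n N a S G H ρ T r V β u h' h α hα e
  exact C.smooth_of_hor H h' (F := fun q => α (rev q)) r0 hA eA

end Crest.Agent.N221.Cov
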