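import Crest.Agent.N221.D.Bas
import Crest.Agent.N221.C.Loc

/-!
Row 221, block D: axes of deck maps, closing lemma, north-south dynamics.
-/

set_option autoImplicit false
set_option linter.unusedSectionVars false
set_option linter.unusedVariables false

open MeasureTheory Set Filter Topology
open scoped ContDiff RealInnerProductSpace ENNReal
open Crest.GeometryTopology.Submanifold
open Crest.Agent.R241.DDefs Crest.Agent.R241.D2
open Crest.Agent.R208.J Crest.Agent.R208.L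

noncomputable section

namespace Crest.Agent.N221.Cov

variable {n N : ℕ} {a : ℝ} {S : Set (Euc N)} {G : Geo n N (-(a ^ 2)) S} (C : Cov G)

variable {x y z ξ η : Euc n} {v w : Euc N} {g k : Euc n → Euc n} {l : ℝ}

lemma Axis.gd_add (h : C.Axis g y w l) (t : ℝ) : g (C.gd y w t) = C.gd y w (t + l) := by
  rw [← h.deck.gd_eq C h.un.mem, h.eq, add_comm, ← C.gd_add h.un.mem, h.vel]
lemma Axis.vel_add (h : C.Axis g y w l) (t : ℝ) : C.vel y w (t + l) = C.vel y w t := by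
  rw [add_comm, ← C.vel_add h.un.mem, h.vel, ← h.eq, h.deck.vel_eq]
lemma Axis.shift (h : C.Axis g y w l) (t : ℝ) : C.Axis g (C.gd y w t) (C.vel y w t) l :=
  ⟨h.deck, h.un.vel C t, h.pos, by rw [h.gd_add, C.gd_add h.un.mem],
    by rw [C.vel_add h.un.mem, h.vel_add]⟩
lemma Axis.iterate_gd (h : C.Axis g y w l) (j : ℕ) (t : ℝ) :
    g^[j] (C.gd y w t) = C.gd y w (t + j * l) := by
  induction j with
  | zero => simp
  | succ j ih =>
    rw [Function.iterate_succ_apply', ih, h.gd_add]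
    congr 1
    push_cast
    ring
lemma Axis.iterate_vel (h : C.Axis g y w l) (j : ℕ) (t : ℝ) :
    C.vel y w (t + j * l) = C.vel y w t := by
  induction j with
  | zero => simp
  | succ j ih =>
    rw [← ih, ← h.vel_add C (t + j * l)]
    congr 1
    push_cast
    ring
lemma Axis.iterate (h : C.Axis g y w l) (j : ℕ) : C.Axis g^[j + 1] y w ((j + 1) * l) := by
  have h1 := h.iterate_gd C (j + 1) 0
  have h2 := h.iterate_vel C (j + 1) 0
  rw [C.gd_zero, zero_add] at h1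
  rw [C.vel_zero, zero_add] at h2
  push_cast at h1 h2
  exact ⟨h.deck.iterate C _, h.un, by have := h.pos; positivity, h1, h2⟩
/-- the inverse translates the reversed geodesic -/
lemma Axis.inv (h : C.Axis g y w l) (hk : C.Deck k) (hkg : ∀ x, k (g x) = x) :
    C.Axis k y (-w) l := by
  have h1 := h.gd_add C (-l)
  have h2 := h.vel_add C (-l)
  rw [neg_add_cancel, C.gd_zero] at h1
  rw [neg_add_cancel, C.vel_zero] at h2
  refine ⟨hk, h.un.neg C, h.pos, ?_, by rw [C.vel_neg h.un.mem, ← h2]⟩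
  rw [C.gd_neg, ← hkg (C.gd y w (-l)), h1]
/-- conjugation -/
lemma Axis.conj (h : C.Axis g y w l) (hk : C.Deck k) {g' : Euc n → Euc n} (hg' : C.Deck g')
    (e : ∀ x, g' (k x) = k (g x)) : C.Axis g' (k y) w l :=
  ⟨hg', (hk.un C).2 h.un, h.pos, by rw [e, h.eq, hk.gd_eq C h.un.mem],
    by rw [hk.vel_eq, h.vel]⟩
/-- downstairs the vector is periodic -/
lemma Axis.periodic (h : C.Axis g y w l) : ph G l (C.pr y, w) = (C.pr y, w) := by
  rw [ph, C.up_gd h.un.mem, ← h.eq, h.deck.pr_eq, h.vel]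
/-- a periodic vector lifts to an axis (`g = dk y (gd y w l)`) -/
lemma exists_axis_of_periodic (hw : C.Un y w) (hl : 0 < l)
    (h : ph G l (C.pr y, w) = (C.pr y, w)) : ∃ g, C.Axis g y w l := by
  rw [ph, C.up_gd hw.mem] at h
  exact ⟨_, C.deck_dk (congrArg Prod.fst h).symm, hw, hl, C.dk_self _ _, congrArg Prod.snd h⟩

omit C in
lemma norm_sub_sq_le {u w : Euc N} (hu : ‖u‖ ≤ 1) (hw : ‖w‖ ≤ 1) :
    ‖u - w‖ ^ 2 ≤ 2 * (1 - ⟪u, w⟫) := by
  rw [norm_sub_sq_real]
  nlinarith [norm_nonneg u, norm_nonneg w]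

variable (ha : 0 < a)
include ha

lemma Axis.act_pos (h : C.Axis g y w l) : C.act g (C.ep y w) = C.ep y w := by
  rw [C.act_ep ha h.deck h.un, h.eq, ← C.ep_gd ha h.un l, h.vel]
lemma Axis.act_neg (h : C.Axis g y w l) : C.act g (C.ep y (-w)) = C.ep y (-w) := by
  rw [C.act_ep ha h.deck (h.un.neg C), h.eq, ← C.ep_gd_neg ha h.un l, h.vel]
lemma Axis.be_pos (h : C.Axis g y w l) : C.be g (C.ep y w) = l := by
  have h0 := C.ep_ne_zero ha h.un
  have h1 := C.b_act ha h.deck h0 y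
  have h2 := C.b_gd ha h0 y l
  rw [C.W_ep_self ha h.un, ← h.eq] at h2
  rw [h.act_pos C ha] at h1
  linarith
lemma Axis.be_neg (h : C.Axis g y w l) : C.be g (C.ep y (-w)) = -l := by
  have h0 := C.ep_ne_zero ha (h.un.neg C)
  have h1 := C.b_act ha h.deck h0 y
  have h2 := C.b_gd ha h0 y (-l)
  rw [C.W_ep_self ha (h.un.neg C), C.gd_neg, neg_neg, ← h.eq] at h2
  rw [h.act_neg C ha] at h1
  linarith

/-- two applications of `gromov_exp` -/
lemma two_gromov (p P Q : Euc n) :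
    (1 - ⟪C.dir p P, C.dir p Q⟫) * ‖C.dir P p - C.dir P Q‖ ^ 2 ≤
      32 * Real.exp (-(2 * a * C.dd p P)) := by
  have h1 := C.gromov_exp ha p P Q
  have h2 := C.gromov_exp ha P p Q
  have h3 := norm_sub_sq_le (C.norm_dir_le P p) (C.norm_dir_le P Q)
  have h4 : ⟪C.dir p P, C.dir p Q⟫ ≤ 1 := (real_inner_le_norm _ _).trans
    (mul_le_one₀ (C.norm_dir_le _ _) (norm_nonneg _) (C.norm_dir_le _ _))
  have h5 : 0 ≤ 1 - ⟪C.dir P p, C.dir P Q⟫ := by nlinarith [sq_nonneg ‖C.dir P p - C.dir P Q‖]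
  rw [C.dd_comm P p, mul_add, Real.exp_add] at h2
  rw [mul_add, Real.exp_add] at h1
  have e : Real.exp (-(2 * a * C.dd p P)) =
      (Real.exp (a * C.dd p P) * Real.exp (a * C.dd p P))⁻¹ := by
    rw [← Real.exp_add, ← Real.exp_neg]; congr 1; ring
  have p1 := Real.exp_pos (a * C.dd p P)
  have p2 := Real.exp_pos (a * C.dd p Q)
  have p3 := Real.exp_pos (a * C.dd P Q)
  rw [e, ← div_eq_mul_inv, le_div_iff₀ (by positivity)]
  have h6 := mul_le_mul h1 h2 (by positivity) (by positivity)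
  have h7 : (1 - ⟪C.dir p P, C.dir p Q⟫) * (1 - ⟪C.dir P p, C.dir P Q⟫) *
      (Real.exp (a * C.dd p P) * Real.exp (a * C.dd p P)) ≤ 16 := by
    refine le_of_mul_le_mul_right ?_ (mul_pos p2 p3)
    nlinarith
  have h8 := mul_le_mul_of_nonneg_left h3 (sub_nonneg.2 h4)
  nlinarith [mul_le_mul_of_nonneg_right h8 (mul_pos p1 p1).le]

lemma W_back (hw : C.Un y w) (hη : η ≠ 0) {T : ℝ} (hT : 0 < T) :
    (1 + ⟪w, C.W η y⟫) * ‖C.W η (C.gd y w (-T)) - C.vel y w (-T)‖ ^ 2 ≤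
      32 * Real.exp (-(2 * a * T)) := by
  have h1 := (((C.tendsto_W ha hη y (C.gd y w (-T))).sub_const (C.vel y w (-T))).norm.pow
    2).const_mul (1 + ⟪w, C.W η y⟫)
  refine le_of_tendsto h1 ((eventually_gt_atTop 0).mono fun s hs => ?_)
  have h2 := C.two_gromov ha y (C.gd y w (-T)) (C.gd y (C.W η y) s)
  have h3 := hw.dir_gd C (show -T < 0 by linarith)
  have h4 := hw.dir_gd' C (show -T < 0 by linarith)
  rw [C.gd_zero] at h3 h4
  rw [C.vel_zero] at h4
  rwa [h3, h4, (C.un_W ha hη y).dir_gd_zero C hs, hw.dd_gd_zero, abs_neg, abs_of_pos hT,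
    inner_neg_left, sub_neg_eq_add, norm_sub_rev] at h2

/-- quantitative NORTH-SOUTH dynamics, seen from the point `y` of the axis -/
lemma Axis.ns (h : C.Axis g y w l) (hη : η ≠ 0) (j : ℕ) :
    (1 + ⟪w, C.W η y⟫) * ‖C.W (C.act g^[j] η) y - w‖ ^ 2 ≤
      32 * Real.exp (-(2 * a * (j * l))) := by
  have h1 := C.W_act ha (h.deck.iterate C j) hη (C.gd y w (-(j * l)))
  have h2 := h.iterate_vel C j (-(j * l))
  rw [h.iterate_gd, neg_add_cancel, C.gd_zero] at h1
  rw [neg_add_cancel, C.vel_zero] at h2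
  rw [h1]
  rcases Nat.eq_zero_or_pos j with rfl | hj
  · have h3 := (C.un_W ha hη y).norm
    have h4 := h.un.norm
    have h5 := abs_real_inner_le_norm w (C.W η y)
    have h6 := norm_sub_sq_le h3.le h4.le
    rw [h3, h4, abs_le] at h5
    rw [real_inner_comm] at h6
    simp only [Nat.cast_zero, zero_mul, neg_zero, C.gd_zero, mul_zero, Real.exp_zero]
    nlinarith [sq_nonneg ‖C.W η y - w‖]
  · have h3 := C.W_back ha h.un hη (T := j * l) (mul_pos (by exact_mod_cast hj) h.pos)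
    rwa [← h2] at h3

lemma ep_near (hw : C.Un y w) {ε : ℝ} (hε : 0 < ε) :
    ∃ δ > 0, ∀ u, C.Un y u → ‖u - w‖ < δ → ‖C.ep y u - C.ep y w‖ < ε := by
  obtain ⟨δ, hδ, h⟩ := Metric.continuousWithinAt_iff.1 (C.continuousOn_ep ha (y, w) hw) ε hε
  refine ⟨δ, hδ, fun u hu h1 => ?_⟩
  rw [← dist_eq_norm] at h1 ⊢
  exact h (x := (y, u)) hu (by rwa [Prod.dist_eq, dist_self, max_eq_right dist_nonneg])

/-- north-south dynamics: uniform convergence off a neighbourhood of the repelling point -/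
lemma Axis.ns_unif (h : C.Axis g y w l) {δ ε : ℝ} (hδ : 0 < δ) (hε : 0 < ε) :
    ∀ᶠ j in atTop, ∀ η, ‖η‖ = 1 → δ ≤ ‖η - C.ep y (-w)‖ → ‖C.act g^[j] η - C.ep y w‖ < ε := by
  obtain ⟨ε', hε', h1⟩ := C.ep_near ha h.un hε
  obtain ⟨δ', hδ', h2⟩ := C.ep_near ha (h.un.neg C) hδ
  have h3 : Tendsto (fun j : ℕ => (j : ℝ) * l) atTop atTop :=
    tendsto_natCast_atTop_atTop.atTop_mul_const h.pos
  filter_upwards [(BdyAux.tendsto_exp (show 0 < 2 * a by positivity) h3 32).eventually_lt_const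
    (show 0 < δ' ^ 2 / 2 * ε' ^ 2 by positivity)] with j hj η hη hd
  have h0 : η ≠ 0 := norm_ne_zero_iff.1 (by rw [hη]; exact one_ne_zero)
  have hg := h.deck.iterate C j
  have h4 := C.un_W ha h0 y
  have h5 : δ' ≤ ‖C.W η y - -w‖ := not_lt.1 fun h6 => by
    have := h2 _ h4 h6
    rw [C.ep_W ha hη] at this
    linarith
  have h6 := norm_sub_sq_le h4.norm.le (h.un.neg C).norm.le
  rw [inner_neg_right, real_inner_comm] at h6
  have h7 := pow_le_pow_left₀ hδ'.le h5 2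
  have h8 := (h.ns C ha h0 j).trans_lt hj
  rw [← C.ep_W ha (C.norm_act ha hg h0) y]
  refine h1 _ (C.un_W ha (C.act_ne_zero ha hg h0) y) (lt_of_pow_lt_pow_left₀ 2 hε'.le ?_)
  refine lt_of_mul_lt_mul_left (lt_of_le_of_lt ?_ h8) (by positivity)
  exact mul_le_mul_of_nonneg_right (by linarith) (sq_nonneg _)

lemma Axis.ns_tendsto (h : C.Axis g y w l) (hη : ‖η‖ = 1) (hne : η ≠ C.ep y (-w)) :
    Tendsto (fun j => C.act g^[j] η) atTop (𝓝 (C.ep y w)) := by
  refine Metric.tendsto_nhds.2 fun ε hε => ?_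
  filter_upwards [h.ns_unif C ha (norm_pos_iff.2 (sub_ne_zero.2 hne)) hε] with j hj
  rw [dist_eq_norm]
  exact hj η hη le_rfl

/-- the only fixed points -/
lemma Axis.fixed (h : C.Axis g y w l) (hη : ‖η‖ = 1) (hf : C.act g η = η) :
    η = C.ep y w ∨ η = C.ep y (-w) := by
  refine or_iff_not_imp_right.2 fun hne => ?_
  refine tendsto_nhds_unique tendsto_const_nhds ((h.ns_tendsto C ha hη hne).congr fun j => ?_)
  rw [C.act_iterate ha h.deck hη, Function.iterate_fixed hf]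

lemma obtuse (p P Q : Euc n) (h : ⟪C.dir p P, C.dir p Q⟫ ≤ 0) :
    ‖C.dir P Q - C.dir P p‖ ≤ 6 * Real.exp (-(a * C.dd p P)) := by
  have h1 := C.two_gromov ha p P Q
  have e : Real.exp (-(2 * a * C.dd p P)) = Real.exp (-(a * C.dd p P)) ^ 2 := by
    rw [← Real.exp_nat_mul]; congr 1; push_cast; ring
  rw [norm_sub_rev]
  refine le_of_pow_le_pow_left₀ two_ne_zero (by positivity) ?_
  nlinarith [sq_nonneg ‖C.dir P p - C.dir P Q‖, sq_nonneg (Real.exp (-(a * C.dd p P)))]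

/-- CHAIN lemma: an almost straight broken geodesic `x, g x, g² x, …` keeps its direction. -/
lemma chain (hg : C.Deck g) (hR : 6 * Real.exp (-(a * C.dd x (g x))) ≤ 1 / 2)
    (hang : ⟪C.dir x (g x), C.dir (g x) x⟫ ≤ -(1 / 2)) (j : ℕ) :
    ‖C.dir x (g^[j + 1] x) - C.dir x (g x)‖ ≤ 6 * Real.exp (-(a * C.dd x (g x))) ∧
    ‖C.dir (g^[j + 1] x) x - C.dir (g x) x‖ ≤ 6 * Real.exp (-(a * C.dd x (g x))) := by
  have key : ∀ u f r : Euc N, ‖u - f‖ ≤ 1 / 2 → ‖r‖ ≤ 1 → ⟪f, r⟫ ≤ -(1 / 2) → ⟪r, u⟫ ≤ 0 := by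
    intro u f r h1 h2 h3
    have h4 := (real_inner_le_norm (u - f) r).trans (mul_le_mul h1 h2 (norm_nonneg _) (by norm_num))
    rw [inner_sub_left] at h4
    rw [real_inner_comm]
    linarith
  induction j with
  | zero => simp only [zero_add, Function.iterate_one, sub_self, norm_zero]; constructor <;> positivity
  | succ j ih =>
    constructor
    · have h1 := C.obtuse ha (g x) x (g^[j + 1 + 1] x) (by
        rw [Function.iterate_succ_apply' g (j + 1), hg.dir_eq C x]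
        exact key _ _ _ (ih.1.trans hR) (C.norm_dir_le _ _) hang)
      rwa [C.dd_comm] at h1
    · have hj := hg.iterate C (j + 1)
      have h1 := C.obtuse ha (g^[j + 1] x) (g^[j + 1 + 1] x) x (by
        rw [Function.iterate_succ_apply g (j + 1), hj.dir_eq C x]
        exact key _ _ _ (ih.2.trans hR) (C.norm_dir_le _ _) (by rwa [real_inner_comm]))
      rw [Function.iterate_succ_apply g (j + 1)] at h1 ⊢
      rwa [hj.dir_eq, hj.dd_eq] at h1

/-- equality in the triangle inequality -/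
lemma between {P p Q : Euc n} (h : C.dd P p + C.dd p Q ≤ C.dd P Q) (h1 : P ≠ p) (h2 : p ≠ Q) :
    C.dir p Q = -C.dir p P := by
  have h3 : SameRay ℝ (C.lg P p) (C.lg P Q - C.lg P p) := by
    rw [sameRay_iff_norm_add, add_sub_cancel]
    have := C.lg_sub_le ha.le P p Q
    rw [norm_sub_rev] at this
    exact le_antisymm (norm_le_insert' _ _) ((add_le_add le_rfl this).trans h)
  obtain ⟨r, hr, e⟩ := h3.exists_nonneg_left (norm_ne_zero_iff.1 (C.dd_pos h1).ne')
  have hu := C.un_dir h1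
  have hA := C.dd_pos h1
  have hQ : Q = C.gd P (C.dir P p) ((1 + r) * C.dd P p) := by
    rw [gd, mul_smul, ← C.lg_eq_dir, add_smul, one_smul, e, add_sub_cancel, C.ex_lg]
  have hr' : 0 < r := lt_of_le_of_ne hr fun h0 => h2 (by rw [hQ, ← h0, add_zero, one_mul, C.gd_dir])
  have h4 := hu.dir_gd C (show C.dd P p < (1 + r) * C.dd P p by nlinarith)
  rw [C.gd_dir, ← hQ, C.vel_dir] at h4
  exact h4

lemma Axis.tendsto_dir (h : C.Axis g y w l) (x : Euc n) :
    Tendsto (fun j => C.dir x (g^[j] x)) atTop (𝓝 (C.W (C.ep y w) x)) := by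
  have h3 : Tendsto (fun j : ℕ => (j : ℝ) * l) atTop atTop :=
    tendsto_natCast_atTop_atTop.atTop_mul_const h.pos
  have h1 := (C.tendsto_asy ha h.un x).comp h3
  have h2 : Tendsto (fun j : ℕ => C.dir x (g^[j] x) - C.dir x (C.gd y w (j * l))) atTop (𝓝 0) := by
    refine squeeze_zero_norm (fun j => ?_)
      (BdyAux.tendsto_exp ha ((BdyAux.tendsto_sub (2 * C.dd y x)).comp h3) 3)
    refine C.dir_sub_le ha _ _ _ ?_
    have h4 := h.iterate_gd C j 0
    rw [C.gd_zero, zero_add] at h4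
    have h5 := C.le_dd_gd ha h.un x (j * l)
    have h6 := C.dd_triangle ha.le x (g^[j] x) (C.gd y w (j * l))
    have h7 : C.dd (g^[j] x) (C.gd y w (j * l)) = C.dd y x := by
      rw [← h4, (h.deck.iterate C j).dd_eq, C.dd_comm]
    simp only [Function.comp]
    linarith
  rw [C.W_ep ha h.un]
  simpa using h2.add h1

variable (H : Hyp n N a S)
include H

/-- the displacement function has a minimum -/
lemma exists_min (hg : C.Deck g) : ∃ y, ∀ z, C.dd y (g y) ≤ C.dd z (g z) := by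
  obtain ⟨D, hD0, hD⟩ := C.exists_deck
  set L := C.dd 0 (g 0)
  let F := {z | (C.pr z = C.pr 0 ∧ C.dd 0 z ≤ D + L + D) ∧
    ∃ k, C.Deck k ∧ ∀ y, C.dk 0 z (k y) = k (g y)}
  have hK : IsCompact (F ×ˢ Metric.closedBall (0 : Euc n) D) :=
    ((C.finite_fibre H 0 0 _).subset fun z hz => hz.1).isCompact.prod (isCompact_closedBall _ _)
  have hf : Continuous fun p : Euc n × Euc n => C.dd p.2 (C.dk 0 p.1 p.2) :=
    C.cont_dd continuous_snd (C.ex_smooth.continuous.comp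
      (f := fun p : Euc n × Euc n => (p.1, C.lg 0 p.2))
      (continuous_fst.prodMk ((C.contDiff_lg 0).continuous.comp continuous_snd)))
  have key : ∀ z, C.dd z (g z) ≤ L → ∃ p ∈ F ×ˢ Metric.closedBall (0 : Euc n) D,
      C.dd p.2 (C.dk 0 p.1 p.2) = C.dd z (g z) := by
    intro z hz
    obtain ⟨k, hk, hkz⟩ := hD z
    obtain ⟨k', hk', e1, e2⟩ := hk.inv
    have hg' := hk.comp C (hg.comp C hk')
    have e3 : C.dk 0 ((k ∘ g ∘ k') 0) = k ∘ g ∘ k' :=
      (C.deck_dk (hg'.pr_eq 0).symm).ext C hg' (C.dk_self _ _)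
    have e4 : ∀ y, (k ∘ g ∘ k') (k y) = k (g y) := fun y => by simp only [Function.comp, e1]
    refine ⟨((k ∘ g ∘ k') 0, k z), ⟨⟨⟨hg'.pr_eq 0, ?_⟩, k, hk, fun y => by rw [e3, e4]⟩,
      mem_closedBall_zero_iff.2 hkz⟩, by rw [e3, e4, hk.dd_eq]⟩
    have t1 := C.dd_triangle ha.le 0 (k z) ((k ∘ g ∘ k') 0)
    have t2 := C.dd_triangle ha.le (k z) ((k ∘ g ∘ k') (k z)) ((k ∘ g ∘ k') 0)
    rw [hg'.dd_eq, e4, hk.dd_eq, C.dd_comm (k z) 0] at t2
    rw [C.dd_zero (k z)] at t1 t2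
    linarith
  obtain ⟨p0, hp0, -⟩ := key 0 le_rfl
  obtain ⟨p, hp, hm⟩ := hK.exists_isMinOn ⟨p0, hp0⟩ hf.continuousOn
  obtain ⟨k, hk, e⟩ := hp.1.2
  obtain ⟨y, hy⟩ := hk.bij.2 p.2
  have h1 : ∀ z, C.dd z (g z) ≤ L → C.dd y (g y) ≤ C.dd z (g z) := fun z hz => by
    obtain ⟨q, hq, e1⟩ := key z hz
    rw [← e1, ← hk.dd_eq C y, ← e, hy]
    exact hm hq
  exact ⟨y, fun z => (le_total _ L).elim (h1 z) fun hz => (h1 0 le_rfl).trans hz⟩

/-- every deck map `g ≠ id` has an axis: minimise the displacement `dd y (g y)`. -/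
lemma exists_axis (hg : C.Deck g) (hx : g x ≠ x) : ∃ y w l, C.Axis g y w l := by
  obtain ⟨y, hy⟩ := C.exists_min ha H hg
  have h1 : y ≠ g y := fun h => hx (congrFun (hg.ext C C.deck_id h.symm) x)
  have hu := C.un_dir h1
  have hl := C.dd_pos h1
  refine ⟨y, _, _, hg, hu, hl, (C.gd_dir _ _).symm, ?_⟩
  set w := C.dir y (g y)
  set l := C.dd y (g y)
  have e : g y = C.gd y w l := (C.gd_dir _ _).symm
  have d1 : C.dd (C.gd y w (l / 2)) (g y) = l / 2 := by
    rw [e, hu.dd_gd, abs_of_pos (by linarith)]; ring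
  have d2 : C.dd (g y) (g (C.gd y w (l / 2))) = l / 2 := by
    rw [hg.dd_eq, hu.dd_gd_zero, abs_of_pos (by linarith)]
  have h2 := C.between ha (P := C.gd y w (l / 2)) (p := g y) (Q := g (C.gd y w (l / 2)))
    (by linarith [hy (C.gd y w (l / 2))])
    (fun h => by rw [h, C.dd_self] at d1; linarith) (fun h => by rw [← h, C.dd_self] at d2; linarith)
  rw [hg.dir_eq, hu.dir_gd_zero C (half_pos hl), e, hu.dir_gd' C (half_lt_self hl), neg_neg] at h2
  exact h2.symm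

/-- CLOSING LEMMA -/
lemma closing (hg : C.Deck g) (hR : 6 * Real.exp (-(a * C.dd x (g x))) ≤ 1 / 2)
    (hang : ⟪C.dir x (g x), C.dir (g x) x⟫ ≤ -(1 / 2)) : ∃ y w l, C.Axis g y w l ∧
      ‖C.W (C.ep y w) x - C.dir x (g x)‖ ≤ 6 * Real.exp (-(a * C.dd x (g x))) ∧
      ‖C.W (C.ep y (-w)) x - C.dir (g x) x‖ ≤ 6 * Real.exp (-(a * C.dd x (g x))) := by
  obtain ⟨y, w, l, h⟩ := C.exists_axis ha H hg (x := x) fun e => by
    rw [e, C.dd_self, mul_zero, neg_zero, Real.exp_zero] at hR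
    linarith
  obtain ⟨k, hk, e1, e2⟩ := hg.inv
  refine ⟨y, w, l, h, le_of_tendsto' (((h.tendsto_dir C ha x).comp
    (tendsto_add_atTop_nat 1)).sub_const _).norm fun j => (C.chain ha hg hR hang j).1,
    le_of_tendsto' ((((h.inv C hk e1).tendsto_dir C ha x).comp
    (tendsto_add_atTop_nat 1)).sub_const _).norm fun j => ?_⟩
  have h1 := (hg.iterate C (j + 1)).dir_eq C x (k^[j + 1] x)
  rw [Function.RightInverse.iterate e2 (j + 1) x] at h1
  simp only [Function.comp]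
  rw [← h1]
  exact (C.chain ha hg hR hang j).2

end Crest.Agent.N221.Cov
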