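import Crest.Agent.N221.D.Chart
import Crest.Agent.N221.D.Axis
import Crest.Agent.N221.En.All
import Crest.Agent.N221.C.Ex

/-!
Row 221, block D: duality, density of periodic pairs, minimality, dense orbits.
-/

set_option autoImplicit false
set_option linter.unusedSectionVars false
set_option linter.unusedVariables false

open MeasureTheory Set Filter Topology
open scoped ContDiff RealInnerProductSpace ENNReal
open Crest.GeometryTopology.Submanifold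
open Crest.Agent.R241.DDefs Crest.Agent.R241.D2
open Crest.Agent.R208.J Crest.Agent.R208.L

noncomputable section

namespace Crest.Agent.N221.Cov

variable {n N : ℕ} {a : ℝ} {S : Set (Euc N)} {G : Geo n N (-(a ^ 2)) S} (C : Cov G)

variable {x y z ξ η : Euc n} {v w : Euc N} {g : Euc n → Euc n}

theorem _root_.Crest.Agent.N221.trS (hSys : SysS) (hVol : VolS) (hLps : LpsS) : TrS :=
  fun n N a S G H => (En.main _ (US G) (ph G) (mu G) (tau G) (hSys n N a S G H)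
    (hVol n N a S G H).1 (hVol n N a S G H).2 (hLps n N a S G H)).2.2

variable (H : Hyp n N a S)
include H

/-- lifting closeness (`exists_r0` (ii) + `deck_dk`): a unit vector downstairs close to
`(pr x, v)` has a lift close to `x` -/
lemma lift_near : ∃ r0 > 0, ∀ x y, ‖C.pr x - C.pr y‖ ≤ r0 →
    ∃ g, C.Deck g ∧ C.dd x (g y) ≤ 2 * ‖C.pr x - C.pr y‖ := by
  obtain ⟨r0, h0, -, h⟩ := C.exists_r0 H
  refine ⟨r0, h0, fun x y hxy => ?_⟩
  obtain ⟨y', e, hd⟩ := h x _ (C.pr_mem y) hxy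
  exact ⟨C.dk y y', C.deck_dk e.symm, by rwa [C.dk_self]⟩

omit C in
/-- the sphere has three points -/
lemma dyn_third (ξ η : Euc n) : ∃ ζ : Euc n, ‖ζ‖ = 1 ∧ ζ ≠ ξ ∧ ζ ≠ η := by
  let f : Fin 3 → Euc n := fun i => EuclideanSpace.single (Fin.castLE H.hn i) 1
  have inj : Function.Injective f := fun i j e => by
    by_contra hne
    have := congrArg (fun u : Euc n => u (Fin.castLE H.hn i)) e
    simp [f, hne] at this
  by_contra hc
  push Not at hc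
  have h : ∀ i, f i = ξ ∨ f i = η := fun i => or_iff_not_imp_left.2 (hc _ (by simp [f]))
  rcases h 0 with h0 | h0 <;> rcases h 1 with h1 | h1 <;> rcases h 2 with h2 | h2 <;>
    first
    | exact absurd (inj (h0.trans h1.symm)) (by decide)
    | exact absurd (inj (h0.trans h2.symm)) (by decide)
    | exact absurd (inj (h1.trans h2.symm)) (by decide)

/-- continuity of the end point -/
lemma dyn_ep_near (hv : C.Un x v) {ε : ℝ} (hε : 0 < ε) : ∃ δ > 0, ∀ y u, C.Un y u → ‖y - x‖ < δ →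
    ‖u - v‖ < δ → ‖C.ep y u - C.ep x v‖ < ε := by
  obtain ⟨δ, δ0, h⟩ := Metric.continuousWithinAt_iff.1 (C.continuousOn_ep H.a_pos (x, v) hv) ε hε
  refine ⟨δ, δ0, fun y u hu h1 h2 => ?_⟩
  rw [← dist_eq_norm] at h1 h2 ⊢
  exact h (x := (y, u)) hu (max_lt h1 h2)

/-- points near the far end of a nearby geodesic are seen in a nearby direction -/
lemma dyn_near_dir (hv : C.Un x v) {ε : ℝ} (hε : 0 < ε) : ∃ e > 0, e ≤ 1 ∧ ∃ T0 : ℝ,
    ∀ x1 v1 T P, C.Un x1 v1 → C.dd x x1 < e → ‖v - v1‖ < e → T0 ≤ T →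
      C.dd P (C.gd x1 v1 T) ≤ 1 → ‖C.dir x P - v‖ < ε := by
  have ha := H.a_pos
  obtain ⟨δ, δ0, h⟩ := Metric.continuousWithinAt_iff.1 (C.continuousOn_asy ha (x, v, x) hv)
    (ε / 3) (by positivity)
  obtain ⟨T0, hT0⟩ := eventually_atTop.1 (((BdyAux.tendsto_exp ha (BdyAux.tendsto_sub 2) 3).eventually_lt_const
    (by positivity : 0 < ε / 3)).and (eventually_ge_atTop 2))
  refine ⟨min δ 1, by positivity, min_le_right _ _, T0, fun x1 v1 T P h1 h2 h3 hT hP => ?_⟩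
  obtain ⟨b1, b2⟩ := hT0 T hT
  rw [lt_min_iff] at h2 h3
  have e0 : C.asy x v x = v := by simpa [C.gd_zero, C.vel_zero] using C.asy_self ha hv 0
  have c1 : ‖C.asy x1 v1 x - v‖ < ε / 3 := by
    have := h (x := (x1, v1, x)) h1 (max_lt (by
      rw [dist_comm, dist_eq_norm]; exact (C.norm_sub_le_dd ha.le _ _).trans_lt h2.1)
      (max_lt (by rw [dist_comm, dist_eq_norm]; exact h3.1) (by rwa [dist_self])))
    rwa [dist_eq_norm, e0] at this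
  have d1 : C.dd x1 x < 1 := by rw [C.dd_comm]; exact h2.2
  have c2 := (C.asy_rate ha h1 x (t := T) (by linarith)).trans_lt
    (lt_of_le_of_lt (mul_le_mul_of_nonneg_left (Real.exp_le_exp.2 (by nlinarith)) (by norm_num)) b1)
  have d2 := C.le_dd_gd ha h1 x T
  have d3 := C.dd_triangle ha.le x P (C.gd x1 v1 T)
  have c3 := (C.dir_sub_le ha x P (C.gd x1 v1 T) (L := T - 2) (by linarith)).trans_lt b1
  have := norm_sub_le_norm_sub_add_norm_sub (C.dir x P) (C.dir x (C.gd x1 v1 T)) v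
  have := norm_sub_le_norm_sub_add_norm_sub (C.dir x (C.gd x1 v1 T)) (C.asy x1 v1 x) v
  linarith

/-- a bi-transitive vector upstairs: the deck translates of the geodesic `(x₀, v₀)` come close to
every `(x, v)` at arbitrarily large positive and negative times -/
lemma exists_trans (hT : TrS) : ∃ x₀ v₀, C.Un x₀ v₀ ∧ ∀ x v, C.Un x v → ∀ ε > 0, ∀ R : ℝ,
    (∃ g t, C.Deck g ∧ R ≤ t ∧ C.dd x (g (C.gd x₀ v₀ t)) < ε ∧ ‖v - C.vel x₀ v₀ t‖ < ε) ∧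
    (∃ g t, C.Deck g ∧ t ≤ -R ∧ C.dd x (g (C.gd x₀ v₀ t)) < ε ∧ ‖v - C.vel x₀ v₀ t‖ < ε) := by
  obtain ⟨ζ, -, h0, -⟩ := dyn_third H 0 0
  obtain ⟨q, hq, hb⟩ := Set.Nonempty.of_closure ⟨_, hT n N a S G H (C.un_dir h0)⟩
  obtain ⟨x₀, e, hu⟩ := C.exists_un hq
  obtain ⟨r0, h0, hl⟩ := C.lift_near H
  refine ⟨x₀, q.2, hu, fun x v hv ε hε R => ?_⟩
  have key : ∀ t, dist (ph G t q) (C.pr x, v) < min r0 (ε / 2) →
      ∃ g, C.Deck g ∧ C.dd x (g (C.gd x₀ q.2 t)) < ε ∧ ‖v - C.vel x₀ q.2 t‖ < ε := fun t ht => by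
    rw [ph, show q = (C.pr x₀, q.2) from Prod.ext e.symm rfl, C.up_gd (hu.mem C), dist_comm,
      Prod.dist_eq, max_lt_iff, lt_min_iff, lt_min_iff, dist_eq_norm, dist_eq_norm] at ht
    obtain ⟨g, hg, hd⟩ := hl x _ ht.1.1.le
    exact ⟨g, hg, by linarith [ht.1.2], by linarith [ht.2.2]⟩
  obtain ⟨⟨t, h1, h2⟩, t', h3, h4⟩ := hb _ hv (min r0 (ε / 2)) (by positivity) R
  exact ⟨(key t h2).imp fun g h => ⟨t, h.1, h1, h.2⟩, (key t' h4).imp fun g h => ⟨t', h.1, h3, h.2⟩⟩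

/-- DUALITY.  From `exists_trans`: `(x', v') = g₁ (geodesic at time t₁ ≤ 0)` and
`g₂ (geodesic at time t₂ ≥ R')` are both close to `(x, v)`; `g = g₁ ∘ g₂⁻¹`, `T = t₂ - t₁`:
`dd (g x) (gd x' v' T) < ε'`, `‖vel x' v' T - v‖ < ε'`. -/
lemma dual (hT : TrS) (hv : C.Un x v) {ε : ℝ} (hε : 0 < ε) (R : ℝ) : ∃ g, C.Deck g ∧
    R ≤ C.dd x (g x) ∧ ‖C.dir x (g x) - v‖ < ε ∧ ‖C.dir (g x) x + v‖ < ε := by
  have ha := H.a_pos
  obtain ⟨x₀, v₀, hu, h⟩ := C.exists_trans H hT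
  obtain ⟨e1, p1, l1, T1, n1⟩ := C.dyn_near_dir H hv hε
  obtain ⟨e2, p2, l2, T2, n2⟩ := C.dyn_near_dir H (hv.neg C) hε
  obtain ⟨⟨g2, t2, hg2, ht2, d2, w2⟩, -⟩ :=
    h x v hv _ (lt_min p1 p2) (max (max T1 T2) (max (R + 2) 0))
  obtain ⟨-, g1, t1, hg1, ht1, d1, w1⟩ := h x v hv _ (lt_min p1 p2) 0
  simp only [max_le_iff, lt_min_iff, neg_zero] at ht2 d2 w2 ht1 d1 w1
  obtain ⟨k1, hk1, -, i1⟩ := hg1.inv C
  obtain ⟨k2, hk2, -, i2⟩ := hg2.inv C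
  have u1 := (hg1.un C).2 (hu.vel C t1)
  have u2 := (hg2.un C).2 ((hu.vel C t2).neg C)
  have q1 : C.gd (g1 (C.gd x₀ v₀ t1)) (C.vel x₀ v₀ t1) (t2 - t1) = g1 (C.gd x₀ v₀ t2) := by
    rw [hg1.gd_eq C ((hu.vel C t1).mem C), C.gd_add (hu.mem C), add_sub_cancel]
  have q2 : C.gd (g2 (C.gd x₀ v₀ t2)) (-C.vel x₀ v₀ t2) (t2 - t1) = g2 (C.gd x₀ v₀ t1) := by
    rw [C.gd_neg, hg2.gd_eq C ((hu.vel C t2).mem C), C.gd_add (hu.mem C), neg_sub, add_sub_cancel]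
  have c1 : C.dd (g1 (k2 x)) (g1 (C.gd x₀ v₀ t2)) ≤ 1 := by
    rw [hg1.dd_eq C, ← hg2.dd_eq C, i2]; linarith [d2.1]
  have c2 : C.dd (g2 (k1 x)) (g2 (C.gd x₀ v₀ t1)) ≤ 1 := by
    rw [hg2.dd_eq C, ← hg1.dd_eq C, i1]; linarith [d1.1]
  refine ⟨g1 ∘ k2, hg1.comp C hk2, ?_, n1 _ _ (t2 - t1) _ u1 d1.1 w1.1 (by linarith [ht2.1.1])
    (by rw [q1]; exact c1), ?_⟩
  · have b1 := C.le_dd_gd ha u1 x (t2 - t1)
    have b2 := C.dd_triangle ha.le x (g1 (k2 x)) (g1 (C.gd x₀ v₀ t2))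
    rw [q1, C.dd_comm] at b1
    change R ≤ C.dd x (g1 (k2 x))
    linarith [d1.1, ht2.2.1]
  · have e : C.dir ((g1 ∘ k2) x) x = C.dir x (g2 (k1 x)) := by
      conv_lhs => rw [Function.comp, ← i1 x, hg1.dir_eq C, ← hg2.dir_eq C, i1, i2]
    rw [e, ← sub_neg_eq_add]
    exact n2 _ _ (t2 - t1) _ u2 d2.2 (by rw [neg_sub_neg, norm_sub_rev]; exact w2.2)
      (by linarith [ht2.1.2]) (by rw [q2]; exact c2)

/-- PERIODIC PAIRS ARE DENSE in `GG` (`dual` at `x = ft ξ η 0`, `v = W ξ x`, `closing`, continuity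
of `ep x ·`, `ep_W`) -/
lemma dense_per (hT : TrS) (h : (ξ, η) ∈ GG n) {ε : ℝ} (hε : 0 < ε) :
    ∃ g ξ' η', C.Per g ξ' η' ∧ ‖ξ' - ξ‖ < ε ∧ ‖η' - η‖ < ε := by
  have ha := H.a_pos
  obtain ⟨e1, e2⟩ := C.ep_ft ha h 0
  have hv := C.un_W ha (GG_sub h).1 (C.ft ξ η 0)
  generalize C.W ξ (C.ft ξ η 0) = v at e1 e2 hv
  generalize C.ft ξ η 0 = x at e1 e2 hv
  obtain ⟨δ1, p1, n1⟩ := C.dyn_ep_near H hv hε
  obtain ⟨δ2, p2, n2⟩ := C.dyn_ep_near H (hv.neg C) hε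
  obtain ⟨δ, δ0, b1, b2, b3⟩ : ∃ δ : ℝ, 0 < δ ∧ 2 * δ ≤ δ1 ∧ 2 * δ ≤ δ2 ∧ 2 * δ ≤ 1 :=
    ⟨min δ1 (min δ2 1) / 2, by positivity, by linarith [min_le_left δ1 (min δ2 1)],
      by linarith [min_le_right δ1 (min δ2 1), min_le_left δ2 1],
      by linarith [min_le_right δ1 (min δ2 1), min_le_right δ2 1]⟩
  obtain ⟨R, hR⟩ := eventually_atTop.1 (((BdyAux.tendsto_exp ha tendsto_id 6).eventually_lt_const
    δ0).and (eventually_gt_atTop 0))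
  obtain ⟨g, hg, d1, d2, d3⟩ := C.dual H hT hv δ0 R
  obtain ⟨c1, c2⟩ := hR _ d1
  rw [id] at c1
  have hne : x ≠ g x := fun e => by rw [← e, C.dd_self] at c2; exact lt_irrefl _ c2
  have hang : ⟪C.dir x (g x), C.dir (g x) x⟫ ≤ -(1 / 2) := by
    have f1 := norm_add_sq_real (C.dir x (g x)) (C.dir (g x) x)
    have f2 := norm_add_le (C.dir x (g x) - v) (C.dir (g x) x + v)
    rw [sub_add_add_cancel] at f2
    rw [C.norm_dir hne, C.norm_dir hne.symm] at f1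
    nlinarith [norm_nonneg (C.dir x (g x) + C.dir (g x) x)]
  obtain ⟨y, w, l, hA, f1, f2⟩ := C.closing ha H hg (by linarith) hang
  have g1 := n1 x _ (C.un_W ha (C.ep_ne_zero ha hA.un) x) (by simpa using p1) (by
    linarith [norm_sub_le_norm_sub_add_norm_sub (C.W (C.ep y w) x) (C.dir x (g x)) v])
  have g2 := n2 x _ (C.un_W ha (C.ep_ne_zero ha (hA.un.neg C)) x) (by simpa using p2) (by
    rw [← sub_neg_eq_add] at d3
    linarith [norm_sub_le_norm_sub_add_norm_sub (C.W (C.ep y (-w)) x) (C.dir (g x) x) (-v)])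
  rw [C.ep_W ha (C.norm_ep ha hA.un), e1] at g1
  rw [C.ep_W ha (C.norm_ep ha (hA.un.neg C)), e2] at g2
  exact ⟨g, _, _, ⟨y, w, l, hA, rfl, rfl⟩, g1, g2⟩

lemma Per.GG (h : C.Per g ξ η) : (ξ, η) ∈ GG n := by
  obtain ⟨y, w, l, hA, rfl, rfl⟩ := h
  exact C.ep_GG H.a_pos hA.un
/-- every point of the geodesic of a periodic pair is on the axis -/
lemma Per.axis (h : C.Per g ξ η) : ∃ l, ∀ s,
    C.Axis g (C.ft ξ η s) (C.W ξ (C.ft ξ η s)) l := by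
  have ha := H.a_pos
  have hO := GG_sub (h.GG C H)
  obtain ⟨y, w, l, hA, rfl, rfl⟩ := h
  refine ⟨l, fun s => ?_⟩
  have e1 := C.gd_ft ha hO (-C.b (C.ep y w) y) (s + C.b (C.ep y w) y)
  have e2 := C.vel_ft ha hO (-C.b (C.ep y w) y) (s + C.b (C.ep y w) y)
  rw [C.ft_ep ha hA.un, C.W_ep_self ha hA.un, neg_add_cancel_comm_assoc] at e1 e2
  rw [← e2, ← e1]
  exact hA.shift C _
lemma Per.symm (h : C.Per g ξ η) : ∃ k, C.Per k η ξ ∧ (∀ x, k (g x) = x) ∧ ∀ x, g (k x) = x := by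
  obtain ⟨y, w, l, hA, rfl, rfl⟩ := h
  obtain ⟨k, hk, i1, i2⟩ := hA.deck.inv C
  exact ⟨k, ⟨y, -w, l, hA.inv C hk i1, rfl, by rw [neg_neg]⟩, i1, i2⟩
lemma Per.act (h : C.Per g ξ η) {k : Euc n → Euc n} (hk : C.Deck k) :
    ∃ g', C.Per g' (C.act k ξ) (C.act k η) := by
  obtain ⟨y, w, l, hA, rfl, rfl⟩ := h
  obtain ⟨k', hk', i1, -⟩ := hk.inv C
  exact ⟨k ∘ g ∘ k', k y, w, l, hA.conj C hk (hk.comp C (hA.deck.comp C hk'))
    (fun x => by simp only [Function.comp, i1]), C.act_ep H.a_pos hk hA.un,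
    C.act_ep H.a_pos hk (hA.un.neg C)⟩

/-- periodic vectors are dense upstairs (`dense_per`, `continuousOn_ft`, `continuousOn_W`) -/
lemma dense_axis (hT : TrS) (hv : C.Un x v) {ε : ℝ} (hε : 0 < ε) :
    ∃ g y w l, C.Axis g y w l ∧ ‖y - x‖ < ε ∧ ‖w - v‖ < ε := by
  have ha := H.a_pos
  have hG := C.ep_GG ha hv
  set s := -C.b (C.ep x v) x
  have c1 : ContinuousAt (fun p : Euc n × Euc n => C.ft p.1 p.2 s) (C.ep x v, C.ep x (-v)) :=
    ContinuousAt.comp (g := fun p : (Euc n × Euc n) × ℝ => C.ft p.1.1 p.1.2 p.2)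
      (f := fun p : Euc n × Euc n => (p, s)) ((C.continuousOn_ft ha).continuousAt
        ((isOpen_GO.prod isOpen_univ).mem_nhds ⟨GG_sub hG, trivial⟩)) (by fun_prop)
  have c2 : ContinuousAt (fun p : Euc n × Euc n => C.W p.1 (C.ft p.1 p.2 s))
      (C.ep x v, C.ep x (-v)) :=
    ContinuousAt.comp (g := fun p : Euc n × Euc n => C.W p.1 p.2)
      (f := fun p : Euc n × Euc n => (p.1, C.ft p.1 p.2 s)) ((C.continuousOn_W ha).continuousAt
        ((isOpen_ne_fun continuous_fst continuous_const).mem_nhds (GG_sub hG).1))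
      (continuousAt_fst.prodMk c1)
  obtain ⟨δ, δ0, hδ⟩ := Metric.continuousAt_iff.1 (c1.prodMk c2) ε hε
  obtain ⟨g, ξ', η', hP, h1, h2⟩ := C.dense_per H hT hG δ0
  obtain ⟨l, hl⟩ := hP.axis C H
  rw [← dist_eq_norm] at h1 h2
  have := hδ (x := (ξ', η')) (max_lt h1 h2)
  rw [Prod.dist_eq, max_lt_iff, dist_eq_norm, dist_eq_norm] at this
  dsimp only at this
  rw [show C.ft (C.ep x v) (C.ep x (-v)) s = x from C.ft_ep ha hv, C.W_ep_self ha hv] at this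
  exact ⟨g, _, _, l, hl s, this⟩

/-- periodic vectors are dense downstairs -/
lemma dense_periodic (hT : TrS) :
    US G ⊆ closure {q | q ∈ US G ∧ ∃ l > 0, ph G l q = q} := by
  intro q hq
  obtain ⟨C⟩ := covS n N a S G H
  obtain ⟨x, e, hu⟩ := C.exists_un hq
  refine Metric.mem_closure_iff.2 fun ε hε => ?_
  obtain ⟨δ, δ0, hδ⟩ := Metric.continuousAt_iff.1
    (C.pr_smooth.continuous.continuousAt (x := x)) ε hε
  obtain ⟨g, y, w, l, hA, h1, h2⟩ := C.dense_axis H hT hu (lt_min δ0 hε)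
  rw [← dist_eq_norm, lt_min_iff] at h1 h2
  refine ⟨(C.pr y, w), ⟨hA.un, l, hA.pos, hA.periodic C⟩, ?_⟩
  rw [dist_comm]
  exact max_lt (e ▸ hδ h1.1) h2.2

/-- MINIMALITY of the boundary action (a periodic pair with `ξ'` near `ξ` and `η' ≠ η`, which
exists because the sphere has three points; `ns_tendsto`) -/
lemma minimal (hT : TrS) (hξ : ‖ξ‖ = 1) (hη : ‖η‖ = 1) {ε : ℝ} (hε : 0 < ε) :
    ∃ g, C.Deck g ∧ ‖C.act g η - ξ‖ < ε := by
  obtain ⟨ζ, h0, h1, h2⟩ := dyn_third H ξ η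
  obtain ⟨g, _, _, ⟨y, w, l, hA, rfl, rfl⟩, b1, b2⟩ := C.dense_per H hT (ξ := ξ) (η := ζ)
    ⟨hξ, h0, h1.symm⟩ (lt_min (half_pos hε) (norm_pos_iff.2 (sub_ne_zero.2 h2.symm)))
  rw [lt_min_iff] at b1 b2
  obtain ⟨j, hj⟩ := (Metric.tendsto_nhds.1 (hA.ns_tendsto C H.a_pos hη fun e => by
    rw [← e] at b2; exact lt_irrefl _ b2.2) _ (half_pos hε)).exists
  rw [dist_eq_norm] at hj
  exact ⟨g^[j], hA.deck.iterate C j, by
    linarith [norm_sub_le_norm_sub_add_norm_sub (C.act g^[j] η) (C.ep y w) ξ, b1.1]⟩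

/-- one dense orbit in `GG` (`exists_trans`, `act_ep`, `ep_gd`, `ep_gd_neg`, `continuousOn_ep`) -/
lemma dense_orbit (hT : TrS) : ∃ ξ₀ η₀, (ξ₀, η₀) ∈ GG n ∧ ∀ ξ η, (ξ, η) ∈ GG n → ∀ ε > 0,
    ∃ g, C.Deck g ∧ ‖C.act g ξ₀ - ξ‖ < ε ∧ ‖C.act g η₀ - η‖ < ε := by
  have ha := H.a_pos
  obtain ⟨x₀, v₀, hu, h⟩ := C.exists_trans H hT
  refine ⟨_, _, C.ep_GG ha hu, fun ξ η hG ε hε => ?_⟩
  obtain ⟨e1, e2⟩ := C.ep_ft ha hG 0
  have hv := C.un_W ha (GG_sub hG).1 (C.ft ξ η 0)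
  obtain ⟨δ1, p1, n1⟩ := C.dyn_ep_near H hv hε
  obtain ⟨δ2, p2, n2⟩ := C.dyn_ep_near H (hv.neg C) hε
  obtain ⟨⟨g, t, hg, -, d, w⟩, -⟩ := h _ _ hv _ (lt_min p1 p2) 0
  have d' := (C.norm_sub_le_dd ha.le _ _).trans_lt d
  rw [norm_sub_rev, lt_min_iff] at d'
  rw [lt_min_iff] at w
  have g1 := n1 _ _ ((hg.un C).2 (hu.vel C t)) d'.1 (by rw [norm_sub_rev]; exact w.1)
  have g2 := n2 _ _ ((hg.un C).2 ((hu.vel C t).neg C)) d'.2 (by rw [neg_sub_neg]; exact w.2)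
  rw [← C.act_ep ha hg (hu.vel C t), C.ep_gd ha hu, e1] at g1
  rw [← C.act_ep ha hg ((hu.vel C t).neg C), C.ep_gd_neg ha hu, e2] at g2
  exact ⟨g, hg, g1, g2⟩

end Crest.Agent.N221.Cov
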