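import Crest.Agent.N221.C.Bdy

/-!
Row 221, block D (helper85): the boundary at infinity of the cover.

Boundary points are the unit vectors `ξ` of `Euc n` (the ray `t • ξ` from the base point `0`).
Everything is `0`-homogeneous in `ξ`, so "smooth on the boundary" is `ContDiffOn` off `0`.

* `W ξ y` unit vector at `y` pointing to `ξ`, `b ξ y` Busemann function (`b ξ 0 = 0`, `∇ b = -W`),
* `ep x v` end point of the geodesic `(x, v)`, `act g` boundary action of a deck map,
  `be g` its Busemann cocycle: `b (act g ξ) (g y) = b ξ y - be g ξ`,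
* `ft ξ η s` the point of the geodesic from `η` to `ξ` with `b ξ = -s`; `(ξ, η, s)` is the chart of
  the unit tangent bundle of the cover in which the flow is `s ↦ s + t` and
  `g (ξ, η, s) = (act g ξ, act g η, s + be g ξ)`,
* `cc ξ η = -(b ξ + b η)` on that geodesic; `cc (g ξ) (g η) = cc ξ η + be g ξ + be g η`.
-/

set_option autoImplicit false

open MeasureTheory Set Filter Topology
open scoped ContDiff RealInnerProductSpace ENNReal
open Crest.GeometryTopology.Submanifold
open Crest.Agent.R241.DDefs Crest.Agent.R241.D2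
open Crest.Agent.R208.J Crest.Agent.R208.L

noncomputable section

namespace Crest.Agent.N221

/-- pairs of different boundary points = oriented geodesics of the cover -/
def GG (n : ℕ) : Set (Euc n × Euc n) := {p | ‖p.1‖ = 1 ∧ ‖p.2‖ = 1 ∧ p.1 ≠ p.2}

/-- the open cone over `GG` -/
def GO (n : ℕ) : Set (Euc n × Euc n) :=
  {p | p.1 ≠ 0 ∧ p.2 ≠ 0 ∧ ‖p.1‖⁻¹ • p.1 ≠ ‖p.2‖⁻¹ • p.2}

namespace Cov

variable {n N : ℕ} {κ : ℝ} {S : Set (Euc N)} {G : Geo n N κ S} (C : Cov G)

/-- unit vector at `y` pointing to the boundary point `ξ` -/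
def W (ξ y : Euc n) : Euc N := C.asy 0 (C.dir 0 ξ) y

/-- Busemann function of `ξ` -/
def b (ξ y : Euc n) : ℝ := C.bus 0 (C.dir 0 ξ) y

/-- forward end point of the geodesic `(x, v)` -/
def ep (x : Euc n) (v : Euc N) : Euc n := C.ex 0 (C.asy x v 0)

/-- boundary action of a deck map -/
def act (g : Euc n → Euc n) (ξ : Euc n) : Euc n := C.ep (g 0) (C.dir 0 ξ)

/-- Busemann cocycle -/
def be (g : Euc n → Euc n) (ξ : Euc n) : ℝ := -C.b (C.act g ξ) (g 0)

/-- the point of the geodesic from `η` to `ξ` with `b ξ = -s` -/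
def ft (ξ η : Euc n) (s : ℝ) : Euc n :=
  Classical.epsilon fun x => C.W η x = -C.W ξ x ∧ C.b ξ x = -s

/-- the Gromov function `2 (ξ | η)₀` -/
def cc (ξ η : Euc n) : ℝ := -(C.b ξ (C.ft ξ η 0) + C.b η (C.ft ξ η 0))

/-- the deck map `g` translates the geodesic `(y, w)` by `l > 0` -/
structure Axis (g : Euc n → Euc n) (y : Euc n) (w : Euc N) (l : ℝ) : Prop where
  deck : C.Deck g
  un : C.Un y w
  pos : 0 < l
  eq : g y = C.gd y w l
  vel : C.vel y w l = w

/-- `(ξ, η)` is a periodic pair: attracting and repelling fixed point of a deck map -/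
def Per (g : Euc n → Euc n) (ξ η : Euc n) : Prop :=
  ∃ y w l, C.Axis g y w l ∧ ξ = C.ep y w ∧ η = C.ep y (-w)

end Cov

/-- dense set of bi-transitive vectors (from `En.main`, see `D/Dyn`) -/
def TrS : Prop := ∀ (n N : ℕ) (a : ℝ) (S : Set (Euc N)) (G : Geo n N (-(a ^ 2)) S),
  Hyp n N a S → US G ⊆ closure {z | z ∈ US G ∧ En.BiTrans (US G) (ph G) z}

end Crest.Agent.N221
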